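import Vale.Agent.P098.Six.S11.Root

/-!
# P098, six dimensions: checked pieces of the tree
-/

namespace Vale.Agent.P098.Six.S11

/-- A piece of the tree. -/
noncomputable def tree27 : Tree LeafX :=
  .s0
    (.s1
    (.s2
    (.leaf (.box ⟨135, 0, -649, 6, 2, 120, 372020, 0, 0, 0, 0, 0, 0⟩ ⟨113, 1, -512, 10, 3, 97, 179326, 0, 0, 0, 0, 0, 0⟩ ⟨113, 1, -512, 10, 3, 97, 179326, 0, 0, 0, 0, 0, 0⟩ ⟨130, 1, -512, 11, 3, 99, 179993, 0, 0, 0, 0, 0, 0⟩ ⟨130, 1, -512, 11, 3, 99, 179993, 0, 0, 0, 0, 0, 0⟩ ⟨222, 1, -744, 6, 2, 148, 485935, 0, 0, 0, 0, 0, 0⟩))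
    (.s1
    (.leaf (.box ⟨183, 0, -825, 6, 2, 159, 404507, 0, 0, 0, 0, 0, 0⟩ ⟨119, 0, -512, 8, 3, 102, 194401, 0, 0, 0, 0, 0, 0⟩ ⟨119, 0, -512, 8, 3, 102, 194401, 0, 0, 0, 0, 0, 0⟩ ⟨133, 0, -512, 9, 3, 106, 194349, 0, 0, 0, 0, 0, 0⟩ ⟨133, 0, -512, 9, 3, 106, 194349, 0, 0, 0, 0, 0, 0⟩ ⟨266, 0, -890, 6, 2, 192, 522232, 0, 0, 0, 0, 0, 0⟩))
    (.leaf (.box ⟨104, 0, -512, 7, -1, 96, 174398, 0, 0, 0, 0, 0, 0⟩ ⟨0, 0, 0, 0, 0, 0, 181780, 0, 0, 0, 0, 0, 0⟩ ⟨0, 0, 0, 0, 0, 0, 181780, 0, 0, 0, 0, 0, 0⟩ ⟨0, 0, 0, 0, 0, 0, 189814, 0, 0, 0, 0, 0, 0⟩ ⟨0, 0, 0, 0, 0, 0, 189814, 0, 0, 0, 0, 0, 0⟩ ⟨108, 0, -541, 6, -1, 103, 198591, 0, 0, 0, 0, 0, 0⟩))))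
    (.leaf (.box ⟨84, 0, -512, 8, -2, 91, 157657, 0, 0, 0, 0, 0, 0⟩ ⟨0, 0, 0, 0, 0, 0, 166337, 0, 0, 0, 0, 0, 0⟩ ⟨0, 0, 0, 0, 0, 0, 166337, 0, 0, 0, 0, 0, 0⟩ ⟨0, 0, 0, 0, 0, 0, 176028, 0, 0, 0, 0, 0, 0⟩ ⟨0, 0, 0, 0, 0, 0, 176028, 0, 0, 0, 0, 0, 0⟩ ⟨77, 0, -516, 6, -2, 89, 186917, 0, 0, 0, 0, 0, 0⟩)))
    (.s2
    (.s0
    (.s1
    (.leaf (.box ⟨92, 1, -512, 10, 3, 110, 219416, 0, 0, 0, 0, 0, 0⟩ ⟨0, 0, 0, 0, 0, 0, 225675, 0, 0, 0, 0, 0, 0⟩ ⟨0, 0, 0, 0, 0, 0, 225675, 0, 0, 0, 0, 0, 0⟩ ⟨0, 0, 0, 0, 0, 0, 232300, 0, 0, 0, 0, 0, 0⟩ ⟨0, 0, 0, 0, 0, 0, 232300, 0, 0, 0, 0, 0, 0⟩ ⟨176, 2, -512, 12, 3, 117, 239326, 0, 0, 0, 0, 0, 0⟩))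
    (.leaf (.box ⟨69, 0, -512, 7, -3, 103, 208185, 0, 0, 0, 0, 0, 0⟩ ⟨0, 0, 0, 0, 0, 0, 217980, 0, 0, 0, 0, 0, 0⟩ ⟨0, 0, 0, 0, 0, 0, 217980, 0, 0, 0, 0, 0, 0⟩ ⟨0, 0, 0, 0, 0, 0, 228741, 0, 0, 0, 0, 0, 0⟩ ⟨0, 0, 0, 0, 0, 0, 228741, 0, 0, 0, 0, 0, 0⟩ ⟨77, 0, -547, 6, -2, 103, 240619, 0, 0, 0, 0, 0, 0⟩)))
    (.s1
    (.s1
    (.leaf (.box ⟨94, 1, -512, 8, 6, 126, 262650, 0, 0, 0, 0, 0, 0⟩ ⟨0, 0, 0, 0, 0, 0, 266611, 0, 0, 0, 0, 0, 0⟩ ⟨0, 0, 0, 0, 0, 0, 266611, 0, 0, 0, 0, 0, 0⟩ ⟨0, 0, 0, 0, 0, 0, 270693, 0, 0, 0, 0, 0, 0⟩ ⟨0, 0, 0, 0, 0, 0, 270693, 0, 0, 0, 0, 0, 0⟩ ⟨181, 3, -512, 11, 7, 145, 274902, 0, 0, 0, 0, 0, 0⟩))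
    (.leaf (.box ⟨81, 1, -512, 7, 1, 121, 251656, 0, 0, 0, 0, 0, 0⟩ ⟨0, 0, 0, 0, 0, 0, 257579, 0, 0, 0, 0, 0, 0⟩ ⟨0, 0, 0, 0, 0, 0, 257579, 0, 0, 0, 0, 0, 0⟩ ⟨0, 0, 0, 0, 0, 0, 263788, 0, 0, 0, 0, 0, 0⟩ ⟨0, 0, 0, 0, 0, 0, 263788, 0, 0, 0, 0, 0, 0⟩ ⟨111, 1, -512, 7, 1, 122, 270302, 0, 0, 0, 0, 0, 0⟩)))
    (.leaf (.box ⟨130, 0, -918, 6, -3, 206, 508096, 0, 0, 0, 0, 0, 0⟩ ⟨81, 0, -512, 8, -4, 111, 254106, 0, 0, 0, 0, 0, 0⟩ ⟨81, 0, -512, 8, -4, 111, 254106, 0, 0, 0, 0, 0, 0⟩ ⟨80, 0, -512, 7, -4, 108, 259039, 0, 0, 0, 0, 0, 0⟩ ⟨80, 0, -512, 7, -4, 108, 259039, 0, 0, 0, 0, 0, 0⟩ ⟨224, 0, -1358, 6, -3, 276, 679109, 0, 0, 0, 0, 0, 0⟩))))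
    (.s1
    (.s0
    (.leaf (.box ⟨105, 1, -512, 10, 1, 115, 228767, 0, 0, 0, 0, 0, 0⟩ ⟨0, 0, 0, 0, 0, 0, 237071, 0, 0, 0, 0, 0, 0⟩ ⟨0, 0, 0, 0, 0, 0, 237071, 0, 0, 0, 0, 0, 0⟩ ⟨0, 0, 0, 0, 0, 0, 246001, 0, 0, 0, 0, 0, 0⟩ ⟨0, 0, 0, 0, 0, 0, 246001, 0, 0, 0, 0, 0, 0⟩ ⟨200, 1, -512, 11, 1, 122, 255629, 0, 0, 0, 0, 0, 0⟩))
    (.leaf (.box ⟨121, 1, -512, 10, 2, 131, 261719, 0, 0, 0, 0, 0, 0⟩ ⟨0, 0, 0, 0, 0, 0, 270162, 0, 0, 0, 0, 0, 0⟩ ⟨0, 0, 0, 0, 0, 0, 270162, 0, 0, 0, 0, 0, 0⟩ ⟨0, 0, 0, 0, 0, 0, 279168, 0, 0, 0, 0, 0, 0⟩ ⟨0, 0, 0, 0, 0, 0, 279168, 0, 0, 0, 0, 0, 0⟩ ⟨269, 1, -512, 13, 2, 141, 288794, 0, 0, 0, 0, 0, 0⟩)))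
    (.leaf (.box ⟨102, 0, -512, 7, -5, 111, 222248, 0, 0, 0, 0, 0, 0⟩ ⟨0, 0, 0, 0, 0, 0, 233021, 0, 0, 0, 0, 0, 0⟩ ⟨0, 0, 0, 0, 0, 0, 233021, 0, 0, 0, 0, 0, 0⟩ ⟨0, 0, 0, 0, 0, 0, 244892, 0, 0, 0, 0, 0, 0⟩ ⟨0, 0, 0, 0, 0, 0, 244892, 0, 0, 0, 0, 0, 0⟩ ⟨117, 0, -546, 6, -4, 108, 258036, 0, 0, 0, 0, 0, 0⟩))))

/-- A piece of the tree. -/
noncomputable def tree28 : Tree LeafX :=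
  .s2
    (.s0
    (.s0
    (.s0
    (.s1
    (.leaf (.box ⟨91, 2, -512, 11, 3, 135, 288749, 0, 0, 0, 0, 0, 0⟩ ⟨0, 0, 0, 0, 0, 0, 293909, 0, 0, 0, 0, 0, 0⟩ ⟨0, 0, 0, 0, 0, 0, 293909, 0, 0, 0, 0, 0, 0⟩ ⟨0, 0, 0, 0, 0, 0, 299256, 0, 0, 0, 0, 0, 0⟩ ⟨0, 0, 0, 0, 0, 0, 299256, 0, 0, 0, 0, 0, 0⟩ ⟨226, 3, -512, 14, 4, 147, 304801, 0, 0, 0, 0, 0, 0⟩))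
    (.leaf (.box ⟨65, 0, -512, 8, -5, 124, 275877, 0, 0, 0, 0, 0, 0⟩ ⟨0, 0, 0, 0, 0, 0, 285878, 0, 0, 0, 0, 0, 0⟩ ⟨0, 0, 0, 0, 0, 0, 285878, 0, 0, 0, 0, 0, 0⟩ ⟨0, 0, 0, 0, 0, 0, 296631, 0, 0, 0, 0, 0, 0⟩ ⟨0, 0, 0, 0, 0, 0, 296631, 0, 0, 0, 0, 0, 0⟩ ⟨90, 0, -533, 6, -4, 115, 308224, 0, 0, 0, 0, 0, 0⟩)))
    (.s1
    (.leaf (.box ⟨96, 2, -512, 11, 3, 144, 309018, 0, 0, 0, 0, 0, 0⟩ ⟨0, 0, 0, 0, 0, 0, 313711, 0, 0, 0, 0, 0, 0⟩ ⟨0, 0, 0, 0, 0, 0, 313711, 0, 0, 0, 0, 0, 0⟩ ⟨0, 0, 0, 0, 0, 0, 318549, 0, 0, 0, 0, 0, 0⟩ ⟨0, 0, 0, 0, 0, 0, 318549, 0, 0, 0, 0, 0, 0⟩ ⟨267, 4, -512, 16, 4, 159, 323537, 0, 0, 0, 0, 0, 0⟩))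
    (.leaf (.box ⟨67, 0, -512, 9, -6, 132, 295744, 0, 0, 0, 0, 0, 0⟩ ⟨0, 0, 0, 0, 0, 0, 305592, 0, 0, 0, 0, 0, 0⟩ ⟨0, 0, 0, 0, 0, 0, 305592, 0, 0, 0, 0, 0, 0⟩ ⟨0, 0, 0, 0, 0, 0, 316118, 0, 0, 0, 0, 0, 0⟩ ⟨0, 0, 0, 0, 0, 0, 316118, 0, 0, 0, 0, 0, 0⟩ ⟨96, 0, -512, 7, -5, 115, 327394, 0, 0, 0, 0, 0, 0⟩))))
    (.s1
    (.leaf (.box ⟨121, 2, -512, 14, 3, 160, 330522, 0, 0, 0, 0, 0, 0⟩ ⟨0, 0, 0, 0, 0, 0, 334666, 0, 0, 0, 0, 0, 0⟩ ⟨0, 0, 0, 0, 0, 0, 334666, 0, 0, 0, 0, 0, 0⟩ ⟨0, 0, 0, 0, 0, 0, 338914, 0, 0, 0, 0, 0, 0⟩ ⟨0, 0, 0, 0, 0, 0, 338914, 0, 0, 0, 0, 0, 0⟩ ⟨357, 6, -512, 20, 5, 182, 343271, 0, 0, 0, 0, 0, 0⟩))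
    (.leaf (.box ⟨86, 1, -512, 9, -7, 145, 316891, 0, 0, 0, 0, 0, 0⟩ ⟨0, 0, 0, 0, 0, 0, 326503, 0, 0, 0, 0, 0, 0⟩ ⟨0, 0, 0, 0, 0, 0, 326503, 0, 0, 0, 0, 0, 0⟩ ⟨0, 0, 0, 0, 0, 0, 336715, 0, 0, 0, 0, 0, 0⟩ ⟨0, 0, 0, 0, 0, 0, 336715, 0, 0, 0, 0, 0, 0⟩ ⟨127, 1, -512, 7, -6, 124, 347587, 0, 0, 0, 0, 0, 0⟩))))
    (.s3
    (.s1
    (.s1
    (.leaf (.box ⟨165, 3, -512, 13, 9, 214, 387516, 0, 0, 0, 0, 0, 0⟩ ⟨0, 0, 0, 0, 0, 0, 401006, 0, 0, 0, 0, 0, 0⟩ ⟨0, 0, 0, 0, 0, 0, 401006, 0, 0, 0, 0, 0, 0⟩ ⟨0, 0, 0, 0, 0, 0, 415469, 0, 0, 0, 0, 0, 0⟩ ⟨0, 0, 0, 0, 0, 0, 415469, 0, 0, 0, 0, 0, 0⟩ ⟨512, 10, -307, 22, 15, 241, 431013, 0, 0, 0, 0, 0, 12626303538⟩))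
    (.leaf (.box ⟨147, 2, -512, 9, -2, 199, 376259, 0, 0, 0, 0, 0, 0⟩ ⟨0, 0, 0, 0, 0, 0, 391838, 0, 0, 0, 0, 0, 0⟩ ⟨0, 0, 0, 0, 0, 0, 391838, 0, 0, 0, 0, 0, 0⟩ ⟨0, 0, 0, 0, 0, 0, 408763, 0, 0, 0, 0, 0, 0⟩ ⟨0, 0, 0, 0, 0, 0, 408763, 0, 0, 0, 0, 0, 0⟩ ⟨342, 4, -512, 12, -1, 221, 427215, 0, 0, 0, 0, 0, 0⟩)))
    (.leaf (.box ⟨134, 1, -512, 11, -12, 179, 363332, 0, 0, 0, 0, 0, 0⟩ ⟨0, 0, 0, 0, 0, 0, 383946, 0, 0, 0, 0, 0, 0⟩ ⟨0, 0, 0, 0, 0, 0, 383946, 0, 0, 0, 0, 0, 0⟩ ⟨0, 0, 0, 0, 0, 0, 407039, 0, 0, 0, 0, 0, 0⟩ ⟨0, 0, 0, 0, 0, 0, 407039, 0, 0, 0, 0, 0, 0⟩ ⟨216, 1, -512, 8, -9, 149, 433088, 0, 0, 0, 0, 0, 0⟩)))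
    (.s1
    (.leaf (.box ⟨178, 1, -512, 7, 2, 194, 935099, 0, 0, 0, 0, 0, 0⟩ ⟨237, 4, -512, 17, 5, 204, 411513, 0, 0, 0, 0, 0, 0⟩ ⟨237, 4, -512, 17, 5, 204, 411513, 0, 0, 0, 0, 0, 0⟩ ⟨368, 7, -512, 24, 7, 220, 376650, 0, 0, 0, 0, 0, 0⟩ ⟨368, 7, -512, 24, 7, 220, 376650, 0, 0, 0, 0, 0, 0⟩ ⟨512, 5, -427, 13, 3, 209, 893262, 0, 0, 0, 0, 0, 0⟩))
    (.leaf (.box ⟨139, 1, -512, 11, -9, 175, 369555, 0, 0, 0, 0, 0, 0⟩ ⟨0, 0, 0, 0, 0, 0, 376374, 0, 0, 0, 0, 0, 0⟩ ⟨0, 0, 0, 0, 0, 0, 376374, 0, 0, 0, 0, 0, 0⟩ ⟨0, 0, 0, 0, 0, 0, 383448, 0, 0, 0, 0, 0, 0⟩ ⟨0, 0, 0, 0, 0, 0, 383448, 0, 0, 0, 0, 0, 0⟩ ⟨209, 1, -512, 10, -8, 148, 390793, 0, 0, 0, 0, 0, 0⟩)))))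
    (.s1
    (.s0
    (.leaf (.box ⟨200, 2, -512, 15, 2, 166, 298817, 0, 0, 0, 0, 0, 0⟩ ⟨0, 0, 0, 0, 0, 0, 307005, 0, 0, 0, 0, 0, 0⟩ ⟨0, 0, 0, 0, 0, 0, 307005, 0, 0, 0, 0, 0, 0⟩ ⟨0, 0, 0, 0, 0, 0, 315653, 0, 0, 0, 0, 0, 0⟩ ⟨0, 0, 0, 0, 0, 0, 315653, 0, 0, 0, 0, 0, 0⟩ ⟨512, 3, -507, 22, 3, 189, 324802, 0, 0, 0, 0, 0, 0⟩))
    (.leaf (.box ⟨345, 4, -512, 25, 4, 250, 384927, 0, 0, 0, 0, 0, 0⟩ ⟨0, 0, 0, 0, 0, 0, 391237, 0, 0, 0, 0, 0, 0⟩ ⟨0, 0, 0, 0, 0, 0, 391237, 0, 0, 0, 0, 0, 0⟩ ⟨0, 0, 0, 0, 0, 0, 397756, 0, 0, 0, 0, 0, 0⟩ ⟨0, 0, 0, 0, 0, 0, 397756, 0, 0, 0, 0, 0, 0⟩ ⟨512, 5, -175, 23, 3, 139, 404496, 0, 0, 0, 38951874, 0, 0⟩)))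
    (.s0
    (.leaf (.box ⟨196, 0, -668, 6, -5, 185, 625434, 0, 0, 0, 0, 0, 0⟩ ⟨152, 0, -512, 9, -8, 135, 313830, 0, 0, 0, 0, 0, 0⟩ ⟨152, 0, -512, 9, -8, 135, 313830, 0, 0, 0, 0, 0, 0⟩ ⟨155, 0, -512, 8, -7, 129, 313451, 0, 0, 0, 0, 0, 0⟩ ⟨155, 0, -512, 8, -7, 129, 313451, 0, 0, 0, 0, 0, 0⟩ ⟨320, 0, -980, 6, -5, 234, 823968, 0, 0, 0, 0, 0, 0⟩))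
    (.leaf (.box ⟨245, 1, -512, 14, -14, 196, 377131, 0, 0, 0, 0, 0, 0⟩ ⟨0, 0, 0, 0, 0, 0, 388302, 0, 0, 0, 0, 0, 0⟩ ⟨0, 0, 0, 0, 0, 0, 388302, 0, 0, 0, 0, 0, 0⟩ ⟨0, 0, 0, 0, 0, 0, 400155, 0, 0, 0, 0, 0, 0⟩ ⟨0, 0, 0, 0, 0, 0, 400155, 0, 0, 0, 0, 0, 0⟩ ⟨283, 0, -512, 10, -10, 159, 412753, 0, 0, 0, 0, 0, 0⟩))))

/-- A piece of the tree. -/
noncomputable def tree29 : Tree LeafX :=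
  .s2
    (.s0
    (.s1
    (.s0
    (.leaf (.box ⟨142, 0, -512, 9, -1, 102, 183765, 0, 0, 0, 0, 0, 0⟩ ⟨0, 0, 0, 0, 0, 0, 192209, 0, 0, 0, 0, 0, 0⟩ ⟨0, 0, 0, 0, 0, 0, 192209, 0, 0, 0, 0, 0, 0⟩ ⟨0, 0, 0, 0, 0, 0, 201465, 0, 0, 0, 0, 0, 0⟩ ⟨0, 0, 0, 0, 0, 0, 201465, 0, 0, 0, 0, 0, 0⟩ ⟨213, 0, -512, 9, -1, 106, 211658, 0, 0, 0, 0, 0, 0⟩))
    (.leaf (.box ⟨214, 0, -512, 12, -1, 135, 240519, 0, 0, 0, 0, 0, 0⟩ ⟨0, 0, 0, 0, 0, 0, 250809, 0, 0, 0, 0, 0, 0⟩ ⟨0, 0, 0, 0, 0, 0, 250809, 0, 0, 0, 0, 0, 0⟩ ⟨0, 0, 0, 0, 0, 0, 262017, 0, 0, 0, 0, 0, 0⟩ ⟨0, 0, 0, 0, 0, 0, 262017, 0, 0, 0, 0, 0, 0⟩ ⟨354, 0, -512, 12, -1, 141, 274274, 0, 0, 0, 0, 0, 0⟩)))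
    (.leaf (.box ⟨177, -1, -512, 9, -6, 103, 181003, 0, 0, 0, 0, 0, 0⟩ ⟨0, 0, 0, 0, 0, 0, 190244, 0, 0, 0, 0, 0, 0⟩ ⟨0, 0, 0, 0, 0, 0, 190244, 0, 0, 0, 0, 0, 0⟩ ⟨0, 0, 0, 0, 0, 0, 200478, 0, 0, 0, 0, 0, 0⟩ ⟨0, 0, 0, 0, 0, 0, 200478, 0, 0, 0, 0, 0, 0⟩ ⟨158, 0, -512, 7, -5, 95, 211875, 0, 0, 0, 0, 0, 0⟩)))
    (.s1
    (.leaf (.box ⟨512, 1, -243, 28, -1, 141, 309251, 0, 0, 0, 0, 0, 0⟩ ⟨0, 0, 0, 0, 0, 0, 320187, 0, 0, 0, 0, 0, 0⟩ ⟨0, 0, 0, 0, 0, 0, 320187, 0, 0, 0, 0, 0, 0⟩ ⟨0, 0, 0, 0, 0, 0, 331924, 0, 0, 0, 0, 0, 0⟩ ⟨0, 0, 0, 0, 0, 0, 331924, 0, 0, 0, 0, 0, 0⟩ ⟨512, 1, -106, 19, 0, 85, 344554, 0, 0, 0, 0, 0, 0⟩))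
    (.leaf (.box ⟨499, -1, -512, 17, -16, 187, 309299, 13950380, 0, 0, 0, 0, 0⟩ ⟨0, 0, 0, 0, 0, 0, 322026, 0, 0, 0, 0, 0, 0⟩ ⟨0, 0, 0, 0, 0, 0, 322026, 0, 0, 0, 0, 0, 0⟩ ⟨0, 0, 0, 0, 0, 0, 335845, 0, 0, 0, 0, 0, 0⟩ ⟨0, 0, 0, 0, 0, 0, 335845, 0, 0, 0, 0, 0, 0⟩ ⟨417, 0, -512, 12, -11, 149, 350903, 0, 0, 0, 0, 0, 0⟩))))
    (.s0
    (.leaf (.box ⟨505, -1, -512, 16, -6, 117, 194391, 0, 0, 0, 0, 5093616646, 0⟩ ⟨0, 0, 0, 0, 0, 0, 203587, 0, 0, 0, 0, 0, 0⟩ ⟨0, 0, 0, 0, 0, 0, 203587, 0, 0, 0, 0, 0, 0⟩ ⟨0, 0, 0, 0, 0, 0, 213696, 0, 0, 0, 0, 0, 0⟩ ⟨0, 0, 0, 0, 0, 0, 213696, 0, 0, 0, 0, 0, 0⟩ ⟨449, -1, -512, 12, -5, 109, 224861, 0, 0, 0, 0, 8363462983, 0⟩))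
    (.leaf (.skip 8 0)))

/-- A piece of the tree. -/
noncomputable def tree30 : Tree LeafX :=
  .s1
    (.leaf (.skip 0 8))
    (.s2
    (.s0
    (.s0
    (.s0
    (.s1
    (.s1
    (.leaf (.skip 0 8))
    (.leaf (.box ⟨406, 3, -512, 15, -2, 287, 481306, 0, 0, 0, 0, 0, 0⟩ ⟨0, 0, 0, 0, 0, 0, 483138, 0, 0, 0, 0, 0, 0⟩ ⟨0, 0, 0, 0, 0, 0, 483138, 0, 0, 0, 0, 0, 0⟩ ⟨0, 0, 0, 0, 0, 0, 484984, 0, 0, 0, 0, 0, 0⟩ ⟨0, 0, 0, 0, 0, 0, 484984, 0, 0, 0, 0, 0, 0⟩ ⟨512, 6, -241, 18, 1, 206, 486844, 0, 0, 0, 0, 0, 0⟩)))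
    (.leaf (.box ⟨330, 2, -512, 17, -16, 241, 472267, 0, 0, 0, 0, 0, 0⟩ ⟨0, 0, 0, 0, 0, 0, 478232, 0, 0, 0, 0, 0, 0⟩ ⟨0, 0, 0, 0, 0, 0, 478232, 0, 0, 0, 0, 0, 0⟩ ⟨0, 0, 0, 0, 0, 0, 484348, 0, 0, 0, 0, 0, 0⟩ ⟨0, 0, 0, 0, 0, 0, 484348, 0, 0, 0, 0, 0, 0⟩ ⟨387, 2, -512, 15, -13, 198, 490623, 0, 0, 0, 0, 0, 0⟩)))
    (.s1
    (.leaf (.skip 0 8))
    (.leaf (.box ⟨467, 3, -512, 22, -20, 299, 536154, 0, 0, 0, 0, 0, 0⟩ ⟨0, 0, 0, 0, 0, 0, 539656, 0, 0, 0, 0, 0, 0⟩ ⟨0, 0, 0, 0, 0, 0, 539656, 0, 0, 0, 0, 0, 0⟩ ⟨0, 0, 0, 0, 0, 0, 543203, 0, 0, 0, 0, 0, 0⟩ ⟨0, 0, 0, 0, 0, 0, 543203, 0, 0, 0, 0, 0, 0⟩ ⟨512, 3, -433, 19, -15, 211, 546796, 0, 0, 0, 0, 0, 0⟩))))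
    (.s1
    (.leaf (.skip 0 8))
    (.leaf (.box ⟨512, 3, -268, 21, -17, 239, 601923, 0, 0, 0, 0, 0, 0⟩ ⟨0, 0, 0, 0, 0, 0, 604334, 0, 0, 0, 0, 0, 0⟩ ⟨0, 0, 0, 0, 0, 0, 604334, 0, 0, 0, 0, 0, 0⟩ ⟨0, 0, 0, 0, 0, 0, 606763, 0, 0, 0, 0, 0, 0⟩ ⟨0, 0, 0, 0, 0, 0, 606763, 0, 0, 0, 0, 0, 0⟩ ⟨512, 5, -165, 19, -10, 139, 609212, 0, 0, 0, 0, 0, 0⟩))))
    (.leaf (.skip 0 8)))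
    (.s2
    (.s0
    (.leaf (.box ⟨512, 3, 29, 34, -3, 73, 452402, 0, 0, 0, 0, 0, 0⟩ ⟨0, 0, 0, 0, 0, 0, 464281, 0, 0, 0, 0, 0, 0⟩ ⟨0, 0, 0, 0, 0, 0, 464281, 0, 0, 0, 0, 0, 0⟩ ⟨0, 0, 0, 0, 0, 0, 476800, 0, 0, 0, 0, 0, 0⟩ ⟨0, 0, 0, 0, 0, 0, 476800, 0, 0, 0, 0, 0, 0⟩ ⟨512, 3, 22, 21, -1, 19, 490012, 0, 0, 0, 0, 5039789877, 700584368⟩))
    (.leaf (.skip 8 0)))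
    (.leaf (.skip 8 0))))

/-- A piece of the tree. -/
noncomputable def tree31 : Tree LeafX :=
  .s1
    (.s0
    (.s2
    (.leaf (.box ⟨132, -1, -512, 21, 7, 97, 131091, 0, 0, 0, 0, 0, 0⟩ ⟨0, 0, 0, 0, 0, 0, 139604, 0, 0, 0, 0, 0, 0⟩ ⟨0, 0, 0, 0, 0, 0, 139604, 0, 0, 0, 0, 0, 0⟩ ⟨0, 0, 0, 0, 0, 0, 149299, 0, 0, 0, 0, 0, 0⟩ ⟨0, 0, 0, 0, 0, 0, 149299, 0, 0, 0, 0, 0, 0⟩ ⟨90, -1, -512, 17, 6, 100, 160440, 0, 0, 0, 0, 0, 0⟩))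
    (.leaf (.box ⟨126, -3, -512, 10, -2, 96, 247064, 0, 0, 0, 0, 0, 0⟩ ⟨114, -4, -512, 16, -3, 94, 145947, 0, 0, 0, 0, 0, 0⟩ ⟨114, -4, -512, 16, -3, 94, 145947, 0, 0, 0, 0, 0, 0⟩ ⟨96, -3, -512, 14, -2, 92, 158075, 0, 0, 0, 0, 0, 0⟩ ⟨96, -3, -512, 14, -2, 92, 158075, 0, 0, 0, 0, 0, 0⟩ ⟨89, -1, -681, 6, -1, 121, 442922, 0, 0, 0, 0, 0, 0⟩)))
    (.s2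
    (.s2
    (.leaf (.box ⟨161, 4, -512, 25, -1, 136, 205261, 0, 0, 0, 0, 0, 0⟩ ⟨0, 0, 0, 0, 0, 0, 212458, 0, 0, 0, 0, 0, 0⟩ ⟨0, 0, 0, 0, 0, 0, 212458, 0, 0, 0, 0, 0, 0⟩ ⟨0, 0, 0, 0, 0, 0, 220178, 0, 0, 0, 0, 0, 0⟩ ⟨0, 0, 0, 0, 0, 0, 220178, 0, 0, 0, 0, 0, 0⟩ ⟨99, 6, -512, 23, -2, 115, 228480, 0, 0, 0, 0, 0, 0⟩))
    (.leaf (.box ⟨157, 1, -512, 13, -5, 136, 419284, 0, 0, 0, 0, 0, 0⟩ ⟨143, 1, -512, 23, -8, 129, 226949, 0, 0, 0, 0, 0, 0⟩ ⟨143, 1, -512, 23, -8, 129, 226949, 0, 0, 0, 0, 0, 0⟩ ⟨122, 1, -512, 19, -8, 120, 233457, 0, 0, 0, 0, 0, 0⟩ ⟨122, 1, -512, 19, -8, 120, 233457, 0, 0, 0, 0, 0, 0⟩ ⟨99, 1, -512, 7, -3, 110, 596087, 0, 0, 0, 0, 0, 0⟩)))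
    (.s0
    (.s1
    (.leaf (.box ⟨94, 0, -512, 7, -4, 125, 481449, 0, 0, 0, 0, 0, 0⟩ ⟨84, 0, -512, 11, -8, 118, 246363, 0, 0, 0, 0, 0, 0⟩ ⟨84, 0, -512, 11, -8, 118, 246363, 0, 0, 0, 0, 0, 0⟩ ⟨77, 0, -512, 10, -7, 111, 253934, 0, 0, 0, 0, 0, 0⟩ ⟨77, 0, -512, 10, -7, 111, 253934, 0, 0, 0, 0, 0, 0⟩ ⟨94, 0, -795, 6, -4, 161, 658607, 0, 0, 0, 0, 0, 0⟩))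
    (.s2
    (.leaf (.box ⟨79, -3, -512, 13, -10, 120, 223527, 0, 0, 0, 0, 0, 0⟩ ⟨0, 0, 0, 0, 0, 0, 239701, 0, 0, 0, 0, 0, 0⟩ ⟨0, 0, 0, 0, 0, 0, 239701, 0, 0, 0, 0, 0, 0⟩ ⟨0, 0, 0, 0, 0, 0, 258398, 0, 0, 0, 0, 0, 0⟩ ⟨0, 0, 0, 0, 0, 0, 258398, 0, 0, 0, 0, 0, 0⟩ ⟨41, -1, -512, 7, -6, 100, 280258, 0, 0, 0, 0, 0, 0⟩))
    (.leaf (.box ⟨82, -3, -512, 10, -12, 118, 243499, 0, 0, 0, 0, 0, 0⟩ ⟨0, 0, 0, 0, 0, 0, 262510, 0, 0, 0, 0, 0, 0⟩ ⟨0, 0, 0, 0, 0, 0, 262510, 0, 0, 0, 0, 0, 0⟩ ⟨0, 0, 0, 0, 0, 0, 284741, 0, 0, 0, 0, 0, 0⟩ ⟨0, 0, 0, 0, 0, 0, 284741, 0, 0, 0, 0, 0, 0⟩ ⟨48, -1, -595, 6, -8, 114, 311085, 0, 0, 0, 0, 0, 0⟩))))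
    (.s2
    (.leaf (.box ⟨100, 0, -512, 9, -8, 148, 579224, 0, 0, 0, 0, 0, 0⟩ ⟨103, 0, -512, 15, -13, 136, 318056, 0, 0, 0, 0, 0, 0⟩ ⟨103, 0, -512, 15, -13, 136, 318056, 0, 0, 0, 0, 0, 0⟩ ⟨98, 0, -512, 12, -12, 125, 324299, 0, 0, 0, 0, 0, 0⟩ ⟨98, 0, -512, 12, -12, 125, 324299, 0, 0, 0, 0, 0, 0⟩ ⟨128, 0, -714, 6, -6, 157, 807219, 0, 0, 0, 0, 0, 0⟩))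
    (.s1
    (.leaf (.box ⟨97, 0, -512, 12, -16, 154, 330232, 0, 0, 0, 0, 0, 0⟩ ⟨0, 0, 0, 0, 0, 0, 343963, 0, 0, 0, 0, 0, 0⟩ ⟨0, 0, 0, 0, 0, 0, 343963, 0, 0, 0, 0, 0, 0⟩ ⟨0, 0, 0, 0, 0, 0, 358885, 0, 0, 0, 0, 0, 0⟩ ⟨0, 0, 0, 0, 0, 0, 358885, 0, 0, 0, 0, 0, 0⟩ ⟨88, 0, -512, 8, -11, 117, 375160, 0, 0, 0, 0, 0, 0⟩))
    (.leaf (.box ⟨89, -2, -512, 12, -19, 143, 323112, 0, 0, 0, 0, 0, 0⟩ ⟨0, 0, 0, 0, 0, 0, 344751, 0, 0, 0, 0, 0, 0⟩ ⟨0, 0, 0, 0, 0, 0, 344751, 0, 0, 0, 0, 0, 0⟩ ⟨0, 0, 0, 0, 0, 0, 369496, 0, 0, 0, 0, 0, 0⟩ ⟨0, 0, 0, 0, 0, 0, 369496, 0, 0, 0, 0, 0, 0⟩ ⟨61, -1, -554, 6, -11, 117, 398068, 0, 0, 0, 0, 0, 0⟩)))))))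
    (.s0
    (.s1
    (.leaf (.box ⟨129, -16, -512, 27, 0, 97, 130861, 0, 0, 0, 0, 0, 0⟩ ⟨0, 0, 0, 0, 0, 0, 143530, 0, 0, 0, 0, 0, 0⟩ ⟨0, 0, 0, 0, 0, 0, 143530, 0, 0, 0, 0, 0, 0⟩ ⟨0, 0, 0, 0, 0, 0, 158915, 0, 0, 0, 0, 0, 0⟩ ⟨0, 0, 0, 0, 0, 0, 158915, 0, 0, 0, 0, 0, 0⟩ ⟨129, -7, -512, 16, 0, 96, 177993, 0, 0, 0, 0, 0, 0⟩))
    (.s2
    (.leaf (.box ⟨126, -22, -512, 29, 8, 107, 135502, 0, 0, 0, 0, 0, 0⟩ ⟨0, 0, 0, 0, 0, 0, 150770, 0, 0, 0, 0, 0, 0⟩ ⟨0, 0, 0, 0, 0, 0, 150770, 0, 0, 0, 0, 0, 0⟩ ⟨0, 0, 0, 0, 0, 0, 169914, 0, 0, 0, 0, 0, 0⟩ ⟨0, 0, 0, 0, 0, 0, 169914, 0, 0, 0, 0, 0, 0⟩ ⟨95, -8, -512, 16, 5, 107, 194626, 0, 0, 0, 0, 0, 0⟩))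
    (.leaf (.box ⟨127, -23, -512, 23, -8, 96, 138683, 22937157, 0, 0, 0, 0, 0⟩ ⟨0, 0, 0, 0, 0, 0, 156985, 0, 0, 0, 0, 0, 0⟩ ⟨0, 0, 0, 0, 0, 0, 156985, 0, 0, 0, 0, 0, 0⟩ ⟨0, 0, 0, 0, 0, 0, 180852, 0, 0, 0, 0, 0, 0⟩ ⟨0, 0, 0, 0, 0, 0, 180852, 0, 0, 0, 0, 0, 0⟩ ⟨52, -7, -512, 12, -4, 93, 213277, 0, 0, 0, 0, 0, 0⟩))))
    (.s2
    (.leaf (.box ⟨144, -5, -512, 21, -5, 133, 382951, 0, 0, 0, 0, 0, 0⟩ ⟨115, -9, -512, 32, -7, 125, 221341, 0, 0, 0, 0, 0, 0⟩ ⟨115, -9, -512, 32, -7, 125, 221341, 0, 0, 0, 0, 0, 0⟩ ⟨91, -7, -512, 26, -6, 117, 228292, 0, 0, 0, 0, 0, 0⟩ ⟨91, -7, -512, 26, -6, 117, 228292, 0, 0, 0, 0, 0, 0⟩ ⟨81, -2, -512, 8, -2, 110, 627082, 0, 0, 0, 0, 0, 0⟩))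
    (.leaf (.box ⟨177, -14, -512, 26, -23, 124, 219806, 0, 0, 0, 0, 0, 0⟩ ⟨0, 0, 0, 0, 0, 0, 241580, 0, 0, 0, 0, 0, 0⟩ ⟨0, 0, 0, 0, 0, 0, 241580, 0, 0, 0, 0, 0, 0⟩ ⟨0, 0, 0, 0, 0, 0, 268141, 0, 0, 0, 0, 0, 0⟩ ⟨0, 0, 0, 0, 0, 0, 268141, 0, 0, 0, 0, 0, 0⟩ ⟨61, -5, -512, 12, -10, 102, 301263, 0, 0, 0, 0, 0, 0⟩))))

/-- A piece of the tree. -/
noncomputable def tree32 : Tree LeafX :=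
  .s2
    (.s0
    (.leaf (.box ⟨109, 4, -512, 25, -15, 175, 350478, 0, 0, 0, 0, 0, 0⟩ ⟨0, 0, 0, 0, 0, 0, 351738, 0, 0, 0, 0, 0, 0⟩ ⟨0, 0, 0, 0, 0, 0, 351738, 0, 0, 0, 0, 0, 0⟩ ⟨0, 0, 0, 0, 0, 0, 353007, 0, 0, 0, 0, 0, 0⟩ ⟨0, 0, 0, 0, 0, 0, 353007, 0, 0, 0, 0, 0, 0⟩ ⟨98, 5, -512, 17, -14, 128, 354285, 0, 0, 0, 0, 0, 0⟩))
    (.s1
    (.leaf (.box ⟨114, 2, -512, 8, -8, 215, 1256247, 0, 0, 0, 0, 0, 0⟩ ⟨110, 5, -512, 17, -18, 198, 544689, 0, 0, 0, 0, 0, 0⟩ ⟨110, 5, -512, 17, -18, 198, 544689, 0, 0, 0, 0, 0, 0⟩ ⟨106, 7, -512, 19, -22, 177, 441726, 0, 0, 0, 0, 0, 0⟩ ⟨106, 7, -512, 19, -22, 177, 441726, 0, 0, 0, 0, 0, 0⟩ ⟨103, 4, -512, 8, -11, 151, 916954, 0, 0, 0, 0, 0, 0⟩))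
    (.leaf (.box ⟨97, 4, -512, 23, -24, 201, 459560, 0, 0, 0, 0, 0, 0⟩ ⟨0, 0, 0, 0, 0, 0, 455775, 0, 0, 0, 0, 0, 0⟩ ⟨0, 0, 0, 0, 0, 0, 455775, 0, 0, 0, 0, 0, 0⟩ ⟨0, 0, 0, 0, 0, 0, 452052, 0, 0, 0, 0, 0, 0⟩ ⟨0, 0, 0, 0, 0, 0, 452052, 0, 0, 0, 0, 0, 0⟩ ⟨72, 4, -512, 15, -20, 136, 448389, 0, 0, 0, 0, 0, 0⟩))))
    (.s2
    (.s0
    (.s1
    (.s1
    (.leaf (.box ⟨103, 2, -512, 11, -18, 189, 422349, 0, 0, 0, 0, 0, 0⟩ ⟨0, 0, 0, 0, 0, 0, 425568, 0, 0, 0, 0, 0, 0⟩ ⟨0, 0, 0, 0, 0, 0, 425568, 0, 0, 0, 0, 0, 0⟩ ⟨0, 0, 0, 0, 0, 0, 428837, 0, 0, 0, 0, 0, 0⟩ ⟨0, 0, 0, 0, 0, 0, 428837, 0, 0, 0, 0, 0, 0⟩ ⟨77, 2, -512, 9, -15, 139, 432155, 0, 0, 0, 0, 0, 0⟩))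
    (.leaf (.box ⟨92, 1, -512, 12, -21, 182, 409844, 0, 0, 0, 0, 0, 0⟩ ⟨0, 0, 0, 0, 0, 0, 418958, 0, 0, 0, 0, 0, 0⟩ ⟨0, 0, 0, 0, 0, 0, 418958, 0, 0, 0, 0, 0, 0⟩ ⟨0, 0, 0, 0, 0, 0, 428487, 0, 0, 0, 0, 0, 0⟩ ⟨0, 0, 0, 0, 0, 0, 428487, 0, 0, 0, 0, 0, 0⟩ ⟨66, 1, -512, 8, -15, 129, 438458, 0, 0, 0, 0, 0, 0⟩)))
    (.leaf (.box ⟨84, 0, -512, 15, -25, 174, 392780, 0, 0, 0, 0, 0, 0⟩ ⟨0, 0, 0, 0, 0, 0, 410736, 0, 0, 0, 0, 0, 0⟩ ⟨0, 0, 0, 0, 0, 0, 410736, 0, 0, 0, 0, 0, 0⟩ ⟨0, 0, 0, 0, 0, 0, 430411, 0, 0, 0, 0, 0, 0⟩ ⟨0, 0, 0, 0, 0, 0, 430411, 0, 0, 0, 0, 0, 0⟩ ⟨63, 0, -512, 8, -15, 121, 452066, 0, 0, 0, 0, 0, 0⟩)))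
    (.s1
    (.s0
    (.leaf (.box ⟨98, 1, -615, 6, -12, 261, 1261927, 0, 0, 0, 0, 0, 0⟩ ⟨89, 2, -512, 11, -20, 197, 579132, 0, 0, 0, 0, 0, 0⟩ ⟨89, 2, -512, 11, -20, 197, 579132, 0, 0, 0, 0, 0, 0⟩ ⟨94, 2, -512, 11, -21, 175, 531503, 0, 0, 0, 0, 0, 0⟩ ⟨94, 2, -512, 11, -21, 175, 531503, 0, 0, 0, 0, 0, 0⟩ ⟨140, 2, -783, 6, -13, 231, 1202997, 0, 0, 0, 0, 0, 0⟩))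
    (.leaf (.box ⟨96, 1, -533, 6, -12, 252, 1465659, 0, 0, 0, 0, 0, 0⟩ ⟨95, 2, -512, 11, -23, 219, 664232, 0, 0, 0, 0, 0, 0⟩ ⟨95, 2, -512, 11, -23, 219, 664232, 0, 0, 0, 0, 0, 0⟩ ⟨101, 3, -512, 11, -24, 193, 599202, 0, 0, 0, 0, 0, 0⟩ ⟨101, 3, -512, 11, -24, 193, 599202, 0, 0, 0, 0, 0, 0⟩ ⟨151, 2, -717, 6, -14, 230, 1328938, 0, 0, 0, 0, 0, 0⟩)))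
    (.leaf (.box ⟨92, 1, -512, 17, -33, 212, 518553, 0, 0, 0, 0, 0, 0⟩ ⟨0, 0, 0, 0, 0, 0, 535101, 0, 0, 0, 0, 0, 0⟩ ⟨0, 0, 0, 0, 0, 0, 535101, 0, 0, 0, 0, 0, 0⟩ ⟨0, 0, 0, 0, 0, 0, 552740, 0, 0, 0, 0, 0, 0⟩ ⟨0, 0, 0, 0, 0, 0, 552740, 0, 0, 0, 0, 0, 0⟩ ⟨86, 0, -512, 9, -20, 136, 571580, 0, 0, 0, 0, 0, 0⟩))))
    (.s0
    (.s1
    (.leaf (.box ⟨116, 1, -512, 14, -23, 194, 436650, 0, 0, 0, 0, 0, 0⟩ ⟨0, 0, 0, 0, 0, 0, 449116, 0, 0, 0, 0, 0, 0⟩ ⟨0, 0, 0, 0, 0, 0, 449116, 0, 0, 0, 0, 0, 0⟩ ⟨0, 0, 0, 0, 0, 0, 462315, 0, 0, 0, 0, 0, 0⟩ ⟨0, 0, 0, 0, 0, 0, 462315, 0, 0, 0, 0, 0, 0⟩ ⟨121, 1, -512, 9, -15, 137, 476312, 0, 0, 0, 0, 0, 0⟩))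
    (.leaf (.box ⟨106, -1, -512, 13, -27, 176, 427701, 0, 0, 0, 0, 0, 0⟩ ⟨0, 0, 0, 0, 0, 0, 451350, 0, 0, 0, 0, 0, 0⟩ ⟨0, 0, 0, 0, 0, 0, 451350, 0, 0, 0, 0, 0, 0⟩ ⟨0, 0, 0, 0, 0, 0, 477767, 0, 0, 0, 0, 0, 0⟩ ⟨0, 0, 0, 0, 0, 0, 477767, 0, 0, 0, 0, 0, 0⟩ ⟨78, -1, -512, 6, -14, 121, 507468, 0, 0, 0, 0, 0, 0⟩)))
    (.leaf (.box ⟨169, 1, -512, 23, -35, 235, 558416, 0, 0, 0, 0, 0, 0⟩ ⟨0, 0, 0, 0, 0, 0, 574007, 0, 0, 0, 0, 0, 0⟩ ⟨0, 0, 0, 0, 0, 0, 574007, 0, 0, 0, 0, 0, 0⟩ ⟨0, 0, 0, 0, 0, 0, 590493, 0, 0, 0, 0, 0, 0⟩ ⟨0, 0, 0, 0, 0, 0, 590493, 0, 0, 0, 0, 0, 0⟩ ⟨203, 1, -512, 13, -21, 150, 607954, 0, 0, 0, 0, 0, 0⟩))))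

/-- A piece of the tree. -/
noncomputable def tree33 : Tree LeafX :=
  .s0
    (.s2
    (.s0
    (.s1
    (.leaf (.box ⟨96, 2, -512, 7, -9, 246, 1695312, 0, 0, 0, 0, 0, 27076173093⟩ ⟨100, 4, -512, 13, -22, 225, 722721, 0, 0, 0, 0, 0, 0⟩ ⟨100, 4, -512, 13, -22, 225, 722721, 0, 0, 0, 0, 0, 0⟩ ⟨102, 6, -512, 15, -27, 199, 564768, 0, 0, 0, 0, 0, 0⟩ ⟨102, 6, -512, 15, -27, 199, 564768, 0, 0, 0, 0, 0, 0⟩ ⟨108, 4, -512, 7, -13, 167, 1122361, 0, 0, 0, 0, 0, 0⟩))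
    (.leaf (.box ⟨80, 3, -512, 19, -28, 228, 600968, 0, 0, 0, 0, 0, 0⟩ ⟨0, 0, 0, 0, 0, 0, 588428, 0, 0, 0, 0, 0, 0⟩ ⟨0, 0, 0, 0, 0, 0, 588428, 0, 0, 0, 0, 0, 0⟩ ⟨0, 0, 0, 0, 0, 0, 576400, 0, 0, 0, 0, 0, 0⟩ ⟨0, 0, 0, 0, 0, 0, 576400, 0, 0, 0, 0, 0, 0⟩ ⟨61, 4, -512, 12, -23, 146, 564853, 0, 0, 0, 0, 0, 0⟩)))
    (.s1
    (.leaf (.box ⟨110, 2, -549, 6, -12, 289, 1956621, 0, 0, 0, 0, 0, 79448321491⟩ ⟨110, 5, -512, 13, -25, 245, 829665, 0, 0, 0, 0, 0, 0⟩ ⟨110, 5, -512, 13, -25, 245, 829665, 0, 0, 0, 0, 0, 0⟩ ⟨111, 6, -512, 14, -31, 215, 638055, 0, 0, 0, 0, 0, 0⟩ ⟨111, 6, -512, 14, -31, 215, 638055, 0, 0, 0, 0, 0, 0⟩ ⟨123, 5, -512, 7, -15, 179, 1243851, 0, 0, 0, 0, 0, 0⟩))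
    (.leaf (.box ⟨86, 4, -512, 20, -32, 249, 685840, 0, 0, 0, 0, 0, 0⟩ ⟨0, 0, 0, 0, 0, 0, 667627, 0, 0, 0, 0, 0, 0⟩ ⟨0, 0, 0, 0, 0, 0, 667627, 0, 0, 0, 0, 0, 0⟩ ⟨0, 0, 0, 0, 0, 0, 650356, 0, 0, 0, 0, 0, 0⟩ ⟨0, 0, 0, 0, 0, 0, 650356, 0, 0, 0, 0, 0, 0⟩ ⟨70, 5, -512, 13, -27, 154, 633956, 0, 0, 0, 0, 0, 0⟩))))
    (.s2
    (.s1
    (.s1
    (.s0
    (.leaf (.box ⟨123, 1, -661, 6, -15, 358, 1798152, 0, 0, 0, 0, 0, 24695840151⟩ ⟨95, 2, -512, 10, -25, 253, 789750, 0, 0, 0, 0, 0, 0⟩ ⟨95, 2, -512, 10, -25, 253, 789750, 0, 0, 0, 0, 0, 0⟩ ⟨95, 3, -512, 9, -27, 225, 675403, 0, 0, 0, 0, 0, 0⟩ ⟨95, 3, -512, 9, -27, 225, 675403, 0, 0, 0, 0, 0, 0⟩ ⟨164, 3, -826, 6, -19, 309, 1462106, 0, 0, 0, 0, 0,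 0⟩))
    (.leaf (.skip 0 8)))
    (.leaf (.box ⟨118, 1, -512, 7, -16, 281, 1696482, 0, 0, 0, 0, 0, 11572139817⟩ ⟨108, 3, -512, 13, -32, 248, 759895, 0, 0, 0, 0, 0, 0⟩ ⟨108, 3, -512, 13, -32, 248, 759895, 0, 0, 0, 0, 0, 0⟩ ⟨108, 3, -512, 12, -32, 214, 677573, 0, 0, 0, 0, 0, 0⟩ ⟨108, 3, -512, 12, -32, 214, 677573, 0, 0, 0, 0, 0, 0⟩ ⟨141, 2, -658, 6, -16, 229, 1528802, 0, 0, 0, 0, 0, 0⟩)))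
    (.leaf (.box ⟨105, 1, -512, 18, -43, 261, 678295, 0, 0, 0, 0, 0, 0⟩ ⟨0, 0, 0, 0, 0, 0, 691516, 0, 0, 0, 0, 0, 0⟩ ⟨0, 0, 0, 0, 0, 0, 691516, 0, 0, 0, 0, 0, 0⟩ ⟨0, 0, 0, 0, 0, 0, 705261, 0, 0, 0, 0, 0, 0⟩ ⟨0, 0, 0, 0, 0, 0, 705261, 0, 0, 0, 0, 0, 0⟩ ⟨111, 1, -512, 10, -26, 155, 719564, 0, 0, 0, 0, 0, 0⟩)))
    (.leaf (.box ⟨224, 2, -512, 28, -47, 307, 724077, 0, 137744187, 0, 0, 0, 0⟩ ⟨0, 0, 0, 0, 0, 0, 735105, 0, 0, 0, 0, 0, 0⟩ ⟨0, 0, 0, 0, 0, 0, 735105, 0, 0, 0, 0, 0, 0⟩ ⟨0, 0, 0, 0, 0, 0, 746473, 0, 0, 0, 0, 0, 0⟩ ⟨0, 0, 0, 0, 0, 0, 746473, 0, 0, 0, 0, 0, 0⟩ ⟨297, 2, -512, 17, -28, 181, 758198, 0, 0, 0, 0, 0, 0⟩))))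
    (.s2
    (.leaf (.box ⟨150, 8, -512, 29, -41, 295, 783475, 0, 0, 0, 0, 0, 193068613514⟩ ⟨0, 0, 0, 0, 0, 0, 757490, 0, 0, 0, 0, 0, 0⟩ ⟨0, 0, 0, 0, 0, 0, 757490, 0, 0, 0, 0, 0, 0⟩ ⟨0, 0, 0, 0, 0, 0, 733174, 0, 0, 0, 0, 0, 0⟩ ⟨0, 0, 0, 0, 0, 0, 733174, 0, 0, 0, 0, 0, 0⟩ ⟨196, 14, -512, 25, -36, 179, 710369, 0, 0, 0, 0, 0, 0⟩))
    (.leaf (.box ⟨343, 6, -512, 39, -57, 379, 892439, 0, 0, 0, 0, 0, 189516750974⟩ ⟨0, 0, 0, 0, 0, 0, 889895, 0, 0, 0, 0, 0, 0⟩ ⟨0, 0, 0, 0, 0, 0, 889895, 0, 0, 0, 0, 0, 0⟩ ⟨0, 0, 0, 0, 0, 0, 887366, 0, 0, 0, 0, 0, 0⟩ ⟨0, 0, 0, 0, 0, 0, 887366, 0, 0, 0, 0, 0, 0⟩ ⟨421, 7, -512, 27, -37, 214, 884850, 0, 0, 0, 0, 0, 0⟩)))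

/-- A piece of the tree. -/
noncomputable def tree34 : Tree LeafX :=
  .s2
    (.leaf (.box ⟨267, 1, -512, 48, -27, 218, 693108, 0, 0, 0, 0, 0, 0⟩ ⟨261, 2, -512, 77, -45, 189, 367810, 0, 0, 0, 0, 0, 0⟩ ⟨261, 2, -512, 77, -45, 189, 367810, 0, 0, 0, 0, 0, 0⟩ ⟨214, 1, -512, 66, -41, 161, 348394, 0, 0, 0, 0, 0, 0⟩ ⟨214, 1, -512, 66, -41, 161, 348394, 0, 0, 0, 0, 0, 0⟩ ⟨151, 1, -512, 22, -14, 136, 854960, 0, 0, 0, 0, 0, 0⟩))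
    (.leaf (.box ⟨431, -8, -512, 43, -40, 220, 722197, 0, 0, 0, 0, 0, 0⟩ ⟨324, -11, -512, 61, -55, 183, 418691, 275501411, 0, 0, 0, 0, 0⟩ ⟨324, -11, -512, 61, -55, 183, 418691, 275501411, 0, 0, 0, 0, 0⟩ ⟨234, -9, -512, 47, -42, 154, 447785, 0, 0, 0, 0, 0, 0⟩ ⟨234, -9, -512, 47, -42, 154, 447785, 0, 0, 0, 0, 0, 0⟩ ⟨195, -3, -512, 15, -12, 132, 1279203, 0, 0, 0, 0, 0, 0⟩))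

/-- A piece of the tree. -/
noncomputable def tree35 : Tree LeafX :=
  .s1
    (.s2
    (.s0
    (.s1
    (.leaf (.box ⟨124, -2, -512, 11, -6, 95, 153469, 0, 0, 0, 0, 0, 0⟩ ⟨0, 0, 0, 0, 0, 0, 164245, 0, 0, 0, 0, 0, 0⟩ ⟨0, 0, 0, 0, 0, 0, 164245, 0, 0, 0, 0, 0, 0⟩ ⟨0, 0, 0, 0, 0, 0, 176647, 0, 0, 0, 0, 0, 0⟩ ⟨0, 0, 0, 0, 0, 0, 176647, 0, 0, 0, 0, 0, 0⟩ ⟨71, -1, -512, 7, -4, 88, 191075, 0, 0, 0, 0, 0, 0⟩))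
    (.s2
    (.leaf (.box ⟨104, -3, -512, 8, -4, 92, 286928, 0, 0, 0, 0, 0, 0⟩ ⟨75, -4, -512, 11, -6, 90, 166309, 0, 0, 0, 0, 0, 0⟩ ⟨75, -4, -512, 11, -6, 90, 166309, 0, 0, 0, 0, 0, 0⟩ ⟨57, -3, -512, 8, -5, 88, 186657, 0, 0, 0, 0, 0, 0⟩ ⟨57, -3, -512, 8, -5, 88, 186657, 0, 0, 0, 0, 0, 0⟩ ⟨110, -2, -1247, 6, -4, 212, 559115, 0, 0, 0, 0, 0, 0⟩))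
    (.s2
    (.leaf (.box ⟨99, -4, -512, 11, -6, 90, 169709, 0, 0, 0, 0, 0, 0⟩ ⟨0, 0, 0, 0, 0, 0, 183193, 0, 0, 0, 0, 0, 0⟩ ⟨0, 0, 0, 0, 0, 0, 183193, 0, 0, 0, 0, 0, 0⟩ ⟨0, 0, 0, 0, 0, 0, 199003, 0, 0, 0, 0, 0, 0⟩ ⟨0, 0, 0, 0, 0, 0, 199003, 0, 0, 0, 0, 0, 0⟩ ⟨48, -2, -512, 7, -4, 86, 217800, 0, 0, 0, 0, 0, 0⟩))
    (.leaf (.box ⟨129, -2, -648, 6, -4, 111, 348522, 0, 0, 0, 0, 2687406900, 0⟩ ⟨71, -2, -512, 8, -5, 87, 193475, 0, 0, 0, 0, 1180563625, 0⟩ ⟨71, -2, -512, 8, -5, 87, 193475, 0, 0, 0, 0, 1180563625, 0⟩ ⟨61, -2, -512, 8, -4, 86, 213866, 0, 0, 0, 0, 0, 0⟩ ⟨61, -2, -512, 8, -4, 86, 213866, 0, 0, 0, 0, 0, 0⟩ ⟨136, -1, -1303, 6, -4, 218, 632533, 0, 0, 0, 0, 0, 0⟩)))))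
    (.s0
    (.s1
    (.leaf (.box ⟨107, -1, -512, 9, -11, 124, 267949, 0, 0, 0, 0, 0, 0⟩ ⟨0, 0, 0, 0, 0, 0, 282986, 0, 0, 0, 0, 0, 0⟩ ⟨0, 0, 0, 0, 0, 0, 282986, 0, 0, 0, 0, 0, 0⟩ ⟨0, 0, 0, 0, 0, 0, 299811, 0, 0, 0, 0, 0, 0⟩ ⟨0, 0, 0, 0, 0, 0, 299811, 0, 0, 0, 0, 0, 0⟩ ⟨87, -1, -512, 6, -7, 103, 318763, 0, 0, 0, 0, 0, 0⟩))
    (.s2
    (.leaf (.box ⟨88, -2, -512, 8, -12, 115, 270817, 0, 0, 0, 0, 0, 0⟩ ⟨0, 0, 0, 0, 0, 0, 291204, 0, 0, 0, 0, 0, 0⟩ ⟨0, 0, 0, 0, 0, 0, 291204, 0, 0, 0, 0, 0, 0⟩ ⟨0, 0, 0, 0, 0, 0, 314910, 0, 0, 0, 0, 0, 0⟩ ⟨0, 0, 0, 0, 0, 0, 314910, 0, 0, 0, 0, 0, 0⟩ ⟨60, -1, -668, 6, -9, 127, 342817, 0, 0, 0, 0, 0, 0⟩))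
    (.leaf (.box ⟨85, -2, -512, 7, -10, 110, 304758, 0, 0, 0, 0, 2051551265, 0⟩ ⟨0, 0, 0, 0, 0, 0, 326575, 0, 0, 0, 0, 0, 0⟩ ⟨0, 0, 0, 0, 0, 0, 326575, 0, 0, 0, 0, 0, 0⟩ ⟨0, 0, 0, 0, 0, 0, 351755, 0, 0, 0, 0, 0, 0⟩ ⟨0, 0, 0, 0, 0, 0, 351755, 0, 0, 0, 0, 0, 0⟩ ⟨74, -1, -713, 6, -8, 135, 381143, 0, 0, 0, 0, 0, 0⟩))))
    (.leaf (.box ⟨198, -2, -512, 14, -18, 146, 351081, 0, 0, 0, 0, 0, 0⟩ ⟨0, 0, 0, 0, 0, 0, 368619, 0, 0, 0, 0, 0, 0⟩ ⟨0, 0, 0, 0, 0, 0, 368619, 0, 0, 0, 0, 0, 0⟩ ⟨0, 0, 0, 0, 0, 0, 388001, 0, 0, 0, 0, 0, 0⟩ ⟨0, 0, 0, 0, 0, 0, 388001, 0, 0, 0, 0, 0, 0⟩ ⟨155, -1, -512, 8, -11, 113, 409533, 0, 0, 0, 0, 0, 0⟩))))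
    (.s0
    (.s1
    (.leaf (.box ⟨134, -1, -512, 9, -5, 92, 182856, 0, 0, 0, 0, 2136141544, 0⟩ ⟨0, 0, 0, 0, 0, 0, 193302, 0, 0, 0, 0, 0, 0⟩ ⟨0, 0, 0, 0, 0, 0, 193302, 0, 0, 0, 0, 0, 0⟩ ⟨0, 0, 0, 0, 0, 0, 205014, 0, 0, 0, 0, 0, 0⟩ ⟨0, 0, 0, 0, 0, 0, 205014, 0, 0, 0, 0, 0, 0⟩ ⟨95, -1, -512, 7, -4, 86, 218236, 0, 0, 0, 0, 0, 0⟩))
    (.leaf (.box ⟨109, -2, -512, 10, -4, 84, 191105, 0, 0, 0, 0, 2592299664, 0⟩ ⟨0, 0, 0, 0, 0, 0, 204981, 0, 0, 0, 0, 0, 0⟩ ⟨0, 0, 0, 0, 0, 0, 204981, 0, 0, 0, 0, 0, 0⟩ ⟨0, 0, 0, 0, 0, 0, 221029, 0, 0, 0, 0, 0, 0⟩ ⟨0, 0, 0, 0, 0, 0, 221029, 0, 0, 0, 0, 0, 0⟩ ⟨71, -1, -512, 6, -3, 84, 239803, 0, 0, 0, 0, 0, 0⟩)))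
    (.leaf (.box ⟨358, -3, -512, 17, -12, 125, 321178, 0, 0, 0, 0, 15078108456, 0⟩ ⟨0, 0, 0, 0, 0, 0, 338410, 0, 0, 0, 0, 0, 0⟩ ⟨0, 0, 0, 0, 0, 0, 338410, 0, 0, 0, 0, 0, 0⟩ ⟨0, 0, 0, 0, 0, 0, 357596, 0, 0, 0, 0, 0, 0⟩ ⟨0, 0, 0, 0, 0, 0, 357596, 0, 0, 0, 0, 0, 0⟩ ⟨230, -2, -512, 12, -8, 108, 379087, 0, 0, 0, 0, 0, 0⟩))))
    (.s2
    (.s2
    (.s0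
    (.leaf (.box ⟨105, -13, -512, 17, -9, 87, 158025, 0, 0, 0, 0, 0, 0⟩ ⟨0, 0, 0, 0, 0, 0, 175084, 0, 0, 0, 0, 0, 0⟩ ⟨0, 0, 0, 0, 0, 0, 175084, 0, 0, 0, 0, 0, 0⟩ ⟨0, 0, 0, 0, 0, 0, 196270, 0, 0, 0, 0, 0, 0⟩ ⟨0, 0, 0, 0, 0, 0, 196270, 0, 0, 0, 0, 0, 0⟩ ⟨44, -4, -512, 10, -7, 88, 223289, 0, 0, 0, 0, 0, 0⟩))
    (.leaf (.box ⟨157, -11, -512, 20, -17, 112, 279093, 0, 0, 0, 0, 0, 0⟩ ⟨0, 0, 0, 0, 0, 0, 305659, 0, 0, 0, 0, 0, 0⟩ ⟨0, 0, 0, 0, 0, 0, 305659, 0, 0, 0, 0, 0, 0⟩ ⟨0, 0, 0, 0, 0, 0, 337813, 0, 0, 0, 0, 0, 0⟩ ⟨0, 0, 0, 0, 0, 0, 337813, 0, 0, 0, 0, 0, 0⟩ ⟨67, -3, -512, 8, -9, 99, 377527, 0, 0, 0, 0, 0, 0⟩)))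
    (.s0
    (.leaf (.box ⟨91, -8, -512, 14, -8, 83, 179160, 0, 0, 0, 0, 1716630154, 0⟩ ⟨0, 0, 0, 0, 0, 0, 197147, 0, 0, 0, 0, 0, 0⟩ ⟨0, 0, 0, 0, 0, 0, 197147, 0, 0, 0, 0, 0, 0⟩ ⟨0, 0, 0, 0, 0, 0, 219148, 0, 0, 0, 0, 0, 0⟩ ⟨0, 0, 0, 0, 0, 0, 219148, 0, 0, 0, 0, 0, 0⟩ ⟨60, -4, -512, 11, -7, 87, 246675, 0, 0, 0, 0, 679346334, 0⟩))
    (.leaf (.box ⟨145, -7, -512, 16, -11, 105, 325474, 0, 0, 0, 0, 3269601387, 0⟩ ⟨0, 0, 0, 0, 0, 0, 355106, 0, 0, 0, 0, 0, 0⟩ ⟨0, 0, 0, 0, 0, 0, 355106, 0, 0, 0, 0, 0, 0⟩ ⟨0, 0, 0, 0, 0, 0, 390674, 0, 0, 0, 0, 0, 0⟩ ⟨0, 0, 0, 0, 0, 0, 390674, 0, 0, 0, 0, 0, 0⟩ ⟨71, -3, -512, 8, -7, 99, 434160, 0, 0, 0, 0, 0, 0⟩))))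
    (.leaf (.skip 8 0)))

/-- A piece of the tree. -/
noncomputable def tree36 : Tree LeafX :=
  .s1
    (.s2
    (.s0
    (.s2
    (.leaf (.box ⟨318, -1, -512, 31, -37, 221, 458816, 0, 0, 0, 0, 0, 0⟩ ⟨0, 0, 0, 0, 0, 0, 476589, 0, 0, 0, 0, 0, 0⟩ ⟨0, 0, 0, 0, 0, 0, 476589, 0, 0, 0, 0, 0, 0⟩ ⟨0, 0, 0, 0, 0, 0, 495793, 0, 0, 0, 0, 0, 0⟩ ⟨0, 0, 0, 0, 0, 0, 495793, 0, 0, 0, 0, 0, 0⟩ ⟨302, -1, -512, 15, -21, 144, 516610, 0, 0, 0, 0, 0, 0⟩))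
    (.leaf (.box ⟨512, -3, -490, 29, -36, 221, 495041, 0, 0, 0, 0, 0, 0⟩ ⟨0, 0, 0, 0, 0, 0, 513938, 0, 0, 0, 0, 0, 0⟩ ⟨0, 0, 0, 0, 0, 0, 513938, 0, 0, 0, 0, 0, 0⟩ ⟨0, 0, 0, 0, 0, 0, 534334, 0, 0, 0, 0, 0, 0⟩ ⟨0, 0, 0, 0, 0, 0, 534334, 0, 0, 0, 0, 0, 0⟩ ⟨400, -1, -512, 16, -20, 149, 556415, 0, 0, 0, 0, 0, 0⟩)))
    (.leaf (.box ⟨512, 1, -150, 28, -32, 172, 754162, 0, 0, 0, 0, 0, 0⟩ ⟨0, 0, 0, 0, 0, 0, 766251, 0, 0, 0, 0, 0, 0⟩ ⟨0, 0, 0, 0, 0, 0, 766251, 0, 0, 0, 0, 0, 0⟩ ⟨0, 0, 0, 0, 0, 0, 778734, 0, 0, 0, 0, 0, 0⟩ ⟨0, 0, 0, 0, 0, 0, 778734, 0, 0, 0, 0, 0, 0⟩ ⟨512, 1, -217, 20, -19, 107, 791629, 0, 0, 0, 0, 0, 0⟩)))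
    (.leaf (.skip 8 0)))
    (.s2
    (.leaf (.box ⟨466, -19, -512, 71, -54, 199, 493184, 0, 0, 0, 0, 35987240490, 0⟩ ⟨0, 0, 0, 0, 0, 0, 531750, 0, 0, 0, 0, 0, 0⟩ ⟨0, 0, 0, 0, 0, 0, 531750, 0, 0, 0, 0, 0, 0⟩ ⟨0, 0, 0, 0, 0, 0, 576858, 0, 0, 0, 0, 0, 0⟩ ⟨0, 0, 0, 0, 0, 0, 576858, 0, 0, 0, 0, 0, 0⟩ ⟨265, -7, -512, 31, -24, 135, 630329, 0, 0, 184749526, 0, 0, 0⟩))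
    (.leaf (.skip 8 0)))

theorem parts1 :
    (runPathS conQ supQ (fun n Qs i d x => leafR conQ seg n Qs i d x) [.d0 true, .d1 false, .d2 true, .d0 false, .d1 true, .d2 false, .d0 false] tree27 0 0 0
      (joinS (lay.B * lay.size) rootQ) = true) ∧
    (runPathS conQ supQ (fun n Qs i d x => leafR conQ seg n Qs i d x) [.d0 true, .d1 false, .d2 true, .d0 false, .d1 true, .d2 false, .d0 true] tree28 0 0 0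
      (joinS (lay.B * lay.size) rootQ) = true) ∧
    (runPathS conQ supQ (fun n Qs i d x => leafR conQ seg n Qs i d x) [.d0 true, .d1 false, .d2 true, .d0 false, .d1 true, .d2 true] tree29 0 0 0
      (joinS (lay.B * lay.size) rootQ) = true) ∧
    (runPathS conQ supQ (fun n Qs i d x => leafR conQ seg n Qs i d x) [.d0 true, .d1 false, .d2 true, .d0 true] tree30 0 0 0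
      (joinS (lay.B * lay.size) rootQ) = true) ∧
    (runPathS conQ supQ (fun n Qs i d x => leafR conQ seg n Qs i d x) [.d0 true, .d1 true, .d2 false, .d0 false] tree31 0 0 0
      (joinS (lay.B * lay.size) rootQ) = true) ∧
    (runPathS conQ supQ (fun n Qs i d x => leafR conQ seg n Qs i d x) [.d0 true, .d1 true, .d2 false, .d0 true, .d1 false, .d0 false] tree32 0 0 0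
      (joinS (lay.B * lay.size) rootQ) = true) ∧
    (runPathS conQ supQ (fun n Qs i d x => leafR conQ seg n Qs i d x) [.d0 true, .d1 true, .d2 false, .d0 true, .d1 false, .d0 true] tree33 0 0 0
      (joinS (lay.B * lay.size) rootQ) = true) ∧
    (runPathS conQ supQ (fun n Qs i d x => leafR conQ seg n Qs i d x) [.d0 true, .d1 true, .d2 false, .d0 true, .d1 true] tree34 0 0 0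
      (joinS (lay.B * lay.size) rootQ) = true) ∧
    (runPathS conQ supQ (fun n Qs i d x => leafR conQ seg n Qs i d x) [.d0 true, .d1 true, .d2 true, .d0 false] tree35 0 0 0
      (joinS (lay.B * lay.size) rootQ) = true) ∧
    (runPathS conQ supQ (fun n Qs i d x => leafR conQ seg n Qs i d x) [.d0 true, .d1 true, .d2 true, .d0 true] tree36 0 0 0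
      (joinS (lay.B * lay.size) rootQ) = true) :=
  ⟨by decide +kernel,
  by decide +kernel,
  by decide +kernel,
  by decide +kernel,
  by decide +kernel,
  by decide +kernel,
  by decide +kernel,
  by decide +kernel,
  by decide +kernel,
  by decide +kernel⟩

end Vale.Agent.P098.Six.S11
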