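import Vale.Agent.P098.Six.S11.Root

/-!
# P098, six dimensions: checked pieces of the tree
-/

namespace Vale.Agent.P098.Six.S11

/-- A piece of the tree. -/
noncomputable def tree0 : Tree LeafX :=
  .s0
    (.s1
    (.s0
    (.leaf (.box ⟨512, 0, 10, 21, -15, 65, 58982, 0, 0, 0, 0, 0, 0⟩ ⟨0, 0, 0, 0, 0, 0, 61231, 0, 0, 0, 0, 0, 0⟩ ⟨0, 0, 0, 0, 0, 0, 61231, 0, 0, 0, 0, 0, 0⟩ ⟨0, 0, 0, 0, 0, 0, 63658, 0, 0, 0, 0, 0, 0⟩ ⟨0, 0, 0, 0, 0, 0, 63658, 0, 0, 0, 0, 0, 0⟩ ⟨512, -1, -194, 34, -23, 116, 66284, 0, 0, 0, 0, 0, 0⟩))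
    (.leaf (.box ⟨512, 0, -427, 22, -1, 74, 146750, 0, 0, 0, 0, 0, 0⟩ ⟨512, -1, -462, 53, -1, 90, 70779, 0, 0, 0, 0, 0, 0⟩ ⟨512, -1, -462, 53, -1, 90, 70779, 0, 0, 0, 0, 0, 0⟩ ⟨512, -1, -496, 64, -2, 110, 71097, 0, 0, 0, 0, 0, 0⟩ ⟨512, -1, -496, 64, -2, 110, 71097, 0, 0, 0, 0, 0, 0⟩ ⟨507, -1, -512, 30, -1, 133, 192115, 0, 0, 0, 0, 0, 0⟩)))
    (.s0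
    (.leaf (.box ⟨512, 1, 237, 8, -9, 111, 126356, 0, 0, 0, 0, 0, 0⟩ ⟨512, 2, 232, 18, -21, 132, 61003, 0, 0, 0, 0, 0, 0⟩ ⟨512, 2, 232, 18, -21, 132, 61003, 0, 0, 0, 0, 0, 0⟩ ⟨512, 3, 205, 21, -25, 149, 59714, 0, 0, 0, 0, 0, 0⟩ ⟨512, 3, 205, 21, -25, 149, 59714, 0, 0, 0, 0, 0, 0⟩ ⟨512, 1, 163, 10, -11, 165, 155505, 0, 0, 0, 0, 0, 0⟩))
    (.leaf (.box ⟨512, 0, -79, 17, -8, 97, 68328, 0, 0, 0, 0, 0, 0⟩ ⟨0, 0, 0, 0, 0, 0, 70757, 0, 0, 0, 0, 0, 0⟩ ⟨0, 0, 0, 0, 0, 0, 70757, 0, 0, 0, 0, 0, 0⟩ ⟨0, 0, 0, 0, 0, 0, 73364, 0, 0, 0, 0, 0, 0⟩ ⟨0, 0, 0, 0, 0, 0, 73364, 0, 0, 0, 0, 0, 0⟩ ⟨512, 1, -182, 21, -10, 144, 76171, 0, 0, 0, 0, 0, 0⟩))))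
    (.s1
    (.s0
    (.s2
    (.s1
    (.s2
    (.leaf (.box ⟨162, 3, -512, 10, 6, 65, 215206, 0, 0, 0, 0, 0, 0⟩ ⟨144, 7, -512, 23, 15, 72, 104161, 0, 0, 0, 0, 0, 0⟩ ⟨144, 7, -512, 23, 15, 72, 104161, 0, 0, 0, 0, 0, 0⟩ ⟨136, 12, -512, 31, 20, 86, 100959, 0, 0, 0, 0, 0, 0⟩ ⟨136, 12, -512, 31, 20, 86, 100959, 0, 0, 0, 0, 0, 0⟩ ⟨213, 10, -512, 21, 13, 119, 249165, 0, 0, 0, 0, 0, 6369903841⟩))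
    (.leaf (.box ⟨159, 5, -512, 21, 13, 63, 94021, 0, 0, 0, 0, 0, 0⟩ ⟨0, 0, 0, 0, 0, 0, 96864, 0, 0, 0, 0, 0, 0⟩ ⟨0, 0, 0, 0, 0, 0, 96864, 0, 0, 0, 0, 0, 0⟩ ⟨0, 0, 0, 0, 0, 0, 99884, 0, 0, 0, 0, 0, 0⟩ ⟨0, 0, 0, 0, 0, 0, 99884, 0, 0, 0, 0, 0, 0⟩ ⟨260, 21, -512, 48, 26, 110, 103098, 0, 0, 0, 0, 0, 0⟩)))
    (.leaf (.box ⟨169, 2, -512, 17, 8, 68, 88641, 0, 0, 0, 0, 0, 0⟩ ⟨0, 0, 0, 0, 0, 0, 92504, 0, 0, 0, 0, 0, 0⟩ ⟨0, 0, 0, 0, 0, 0, 92504, 0, 0, 0, 0, 0, 0⟩ ⟨0, 0, 0, 0, 0, 0, 96717, 0, 0, 0, 0, 0, 0⟩ ⟨0, 0, 0, 0, 0, 0, 96717, 0, 0, 0, 0, 0, 0⟩ ⟨154, 4, -512, 29, 13, 112, 101333, 0, 0, 0, 0, 0, 0⟩)))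
    (.leaf (.box ⟨203, 4, -512, 33, 9, 63, 81847, 0, 0, 0, 0, 0, 0⟩ ⟨0, 0, 0, 0, 0, 0, 85523, 0, 0, 0, 0, 0, 0⟩ ⟨0, 0, 0, 0, 0, 0, 85523, 0, 0, 0, 0, 0, 0⟩ ⟨0, 0, 0, 0, 0, 0, 89545, 0, 0, 0, 0, 0, 0⟩ ⟨0, 0, 0, 0, 0, 0, 89545, 0, 0, 0, 0, 0, 0⟩ ⟨262, 10, -512, 54, 13, 95, 93963, 0, 0, 0, 0, 0, 0⟩)))
    (.s1
    (.s1
    (.leaf (.skip 0 8))
    (.s0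
    (.leaf (.box ⟨162, 2, -559, 6, 7, 82, 301981, 0, 0, 0, 0, 0, 0⟩ ⟨143, 5, -512, 13, 15, 81, 141752, 0, 0, 0, 0, 0, 0⟩ ⟨143, 5, -512, 13, 15, 81, 141752, 0, 0, 0, 0, 0, 0⟩ ⟨147, 7, -512, 17, 20, 91, 134253, 0, 0, 0, 0, 0, 0⟩ ⟨147, 7, -512, 17, 20, 91, 134253, 0, 0, 0, 0, 0, 0⟩ ⟨195, 6, -512, 11, 11, 115, 328448, 0, 0, 0, 0, 0, 2546372468⟩))
    (.s3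
    (.leaf (.box ⟨134, 2, -527, 6, 7, 98, 400456, 0, 0, 0, 0, 0, 0⟩ ⟨135, 6, -512, 15, 16, 103, 187924, 0, 0, 0, 0, 0, 0⟩ ⟨135, 6, -512, 15, 16, 103, 187924, 0, 0, 0, 0, 0, 0⟩ ⟨148, 10, -512, 18, 22, 116, 179684, 0, 0, 0, 0, 0, 0⟩ ⟨148, 10, -512, 18, 22, 116, 179684, 0, 0, 0, 0, 0, 0⟩ ⟨225, 8, -512, 10, 13, 152, 467315, 0, 0, 0, 0, 0, 9840496514⟩))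
    (.leaf (.box ⟨127, 4, -512, 12, 18, 86, 173759, 0, 0, 0, 0, 0, 0⟩ ⟨0, 0, 0, 0, 0, 0, 172857, 0, 0, 0, 0, 0, 0⟩ ⟨0, 0, 0, 0, 0, 0, 172857, 0, 0, 0, 0, 0, 0⟩ ⟨0, 0, 0, 0, 0, 0, 171963, 0, 0, 0, 0, 0, 0⟩ ⟨0, 0, 0, 0, 0, 0, 171963, 0, 0, 0, 0, 0, 0⟩ ⟨200, 20, -512, 24, 38, 133, 171078, 0, 0, 0, 0, 0, 13699608844⟩)))))
    (.s2
    (.leaf (.box ⟨179, 2, -512, 8, 6, 83, 265734, 0, 0, 0, 0, 0, 0⟩ ⟨164, 6, -512, 18, 14, 88, 126047, 0, 0, 0, 0, 0, 0⟩ ⟨164, 6, -512, 18, 14, 88, 126047, 0, 0, 0, 0, 0, 0⟩ ⟨158, 9, -512, 22, 17, 97, 123778, 0, 0, 0, 0, 0, 0⟩ ⟨158, 9, -512, 22, 17, 97, 123778, 0, 0, 0, 0, 0, 0⟩ ⟨191, 6, -512, 11, 9, 114, 325686, 0, 0, 0, 0, 0, 0⟩))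
    (.leaf (.box ⟨171, 4, -512, 20, 11, 79, 115168, 0, 0, 0, 0, 0, 0⟩ ⟨0, 0, 0, 0, 0, 0, 119282, 0, 0, 0, 0, 0, 0⟩ ⟨0, 0, 0, 0, 0, 0, 119282, 0, 0, 0, 0, 0, 0⟩ ⟨0, 0, 0, 0, 0, 0, 123701, 0, 0, 0, 0, 0, 0⟩ ⟨0, 0, 0, 0, 0, 0, 123701, 0, 0, 0, 0, 0, 0⟩ ⟨213, 10, -512, 30, 16, 104, 128459, 0, 0, 0, 0, 0, 0⟩)))))
    (.s0
    (.leaf (.box ⟨436, -1, -512, 28, 4, 86, 76375, 0, 0, 0, 0, 0, 0⟩ ⟨0, 0, 0, 0, 0, 0, 79842, 0, 0, 0, 0, 0, 0⟩ ⟨0, 0, 0, 0, 0, 0, 79842, 0, 0, 0, 0, 0, 0⟩ ⟨0, 0, 0, 0, 0, 0, 83638, 0, 0, 0, 0, 0, 0⟩ ⟨0, 0, 0, 0, 0, 0, 83638, 0, 0, 0, 0, 0, 0⟩ ⟨334, -2, -512, 34, 4, 122, 87812, 0, 0, 0, 0, 0, 0⟩))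
    (.leaf (.box ⟨141, 1, -512, 17, 8, 78, 97894, 0, 0, 0, 0, 0, 0⟩ ⟨0, 0, 0, 0, 0, 0, 103568, 0, 0, 0, 0, 0, 0⟩ ⟨0, 0, 0, 0, 0, 0, 103568, 0, 0, 0, 0, 0, 0⟩ ⟨0, 0, 0, 0, 0, 0, 109939, 0, 0, 0, 0, 0, 0⟩ ⟨0, 0, 0, 0, 0, 0, 109939, 0, 0, 0, 0, 0, 0⟩ ⟨157, 2, -512, 22, 8, 95, 117145, 0, 0, 0, 0, 0, 0⟩))))

/-- A piece of the tree. -/
noncomputable def tree1 : Tree LeafX :=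
  .s0
    (.s2
    (.leaf (.box ⟨512, -1, 50, 10, -8, 59, 109074, 0, 0, 0, 0, 0, 0⟩ ⟨512, -2, -2, 21, -18, 66, 52653, 0, 0, 0, 19137737, 0, 0⟩ ⟨512, -2, -2, 21, -18, 66, 52653, 0, 0, 0, 19137737, 0, 0⟩ ⟨512, -2, -73, 24, -21, 81, 52949, 0, 0, 0, 0, 0, 0⟩ ⟨512, -2, -73, 24, -21, 81, 52949, 0, 0, 0, 0, 0, 0⟩ ⟨512, -1, -173, 10, -9, 98, 143269, 0, 0, 0, 0, 0, 0⟩))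
    (.s0
    (.s1
    (.s2
    (.leaf (.box ⟨512, -4, 92, 27, -38, 125, 44803, 0, 0, 0, 0, 0, 0⟩ ⟨0, 0, 0, 0, 0, 0, 46476, 0, 0, 0, 0, 0, 0⟩ ⟨0, 0, 0, 0, 0, 0, 46476, 0, 0, 0, 0, 0, 0⟩ ⟨0, 0, 0, 0, 0, 0, 48279, 0, 0, 0, 0, 0, 0⟩ ⟨0, 0, 0, 0, 0, 0, 48279, 0, 0, 0, 0, 0, 0⟩ ⟨476, -5, -512, 33, -50, 194, 50227, 0, 0, 0, 0, 0, 0⟩))
    (.leaf (.box ⟨512, -6, -26, 30, -38, 115, 40707, 0, 0, 0, 0, 0, 0⟩ ⟨0, 0, 0, 0, 0, 0, 42233, 0, 0, 0, 0, 0, 0⟩ ⟨0, 0, 0, 0, 0, 0, 42233, 0, 0, 0, 0, 0, 0⟩ ⟨0, 0, 0, 0, 0, 0, 43876, 0, 0, 0, 0, 0, 0⟩ ⟨0, 0, 0, 0, 0, 0, 43876, 0, 0, 0, 0, 0, 0⟩ ⟨316, -5, -512, 27, -38, 139, 45653, 0, 0, 0, 0, 0, 3684565008⟩)))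
    (.leaf (.box ⟨512, -3, 289, 17, -41, 99, 40628, 0, 0, 0, 0, 0, 0⟩ ⟨0, 0, 0, 0, 0, 0, 42653, 0, 0, 0, 0, 0, 0⟩ ⟨0, 0, 0, 0, 0, 0, 42653, 0, 0, 0, 0, 0, 0⟩ ⟨0, 0, 0, 0, 0, 0, 44889, 0, 0, 0, 0, 0, 0⟩ ⟨0, 0, 0, 0, 0, 0, 44889, 0, 0, 0, 0, 0, 0⟩ ⟨512, -4, -199, 20, -48, 143, 47372, 0, 0, 0, 0, 0, 0⟩)))
    (.s3
    (.s3
    (.s1
    (.s2
    (.leaf (.box ⟨512, -5, -390, 28, -29, 133, 47842, 0, 0, 0, 0, 0, 0⟩ ⟨0, 0, 0, 0, 0, 0, 51891, 0, 0, 0, 0, 0, 0⟩ ⟨0, 0, 0, 0, 0, 0, 51891, 0, 0, 0, 0, 0, 0⟩ ⟨0, 0, 0, 0, 0, 0, 56688, 0, 0, 0, 0, 0, 0⟩ ⟨0, 0, 0, 0, 0, 0, 56688, 0, 0, 0, 0, 0, 0⟩ ⟨274, -3, -512, 16, -18, 109, 62462, 0, 0, 0, 0, 0, 0⟩))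
    (.s1
    (.leaf (.box ⟨312, -1, -512, 8, -10, 127, 96835, 0, 0, 0, 0, 0, 0⟩ ⟨242, -2, -512, 15, -18, 112, 48270, 0, 0, 0, 0, 0, 0⟩ ⟨242, -2, -512, 15, -18, 112, 48270, 0, 0, 0, 0, 0, 0⟩ ⟨177, -2, -512, 12, -15, 100, 51996, 0, 0, 0, 0, 0, 0⟩ ⟨177, -2, -512, 12, -15, 100, 51996, 0, 0, 0, 0, 0, 0⟩ ⟨282, -1, -1081, 6, -7, 190, 200576, 0, 0, 0, 0, 0, 4081691949⟩))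
    (.leaf (.box ⟨490, -4, -512, 15, -45, 165, 48383, 0, 0, 0, 0, 0, 0⟩ ⟨0, 0, 0, 0, 0, 0, 53198, 0, 0, 0, 0, 0, 0⟩ ⟨0, 0, 0, 0, 0, 0, 53198, 0, 0, 0, 0, 0, 0⟩ ⟨0, 0, 0, 0, 0, 0, 59076, 0, 0, 0, 0, 0, 0⟩ ⟨0, 0, 0, 0, 0, 0, 59076, 0, 0, 0, 0, 0, 0⟩ ⟨238, -1, -616, 6, -22, 117, 66415, 0, 0, 341337, 0, 0, 0⟩))))
    (.leaf (.box ⟨512, -2, -78, 12, -36, 130, 50296, 0, 0, 0, 0, 0, 0⟩ ⟨0, 0, 0, 0, 0, 0, 55374, 0, 0, 0, 0, 0, 0⟩ ⟨0, 0, 0, 0, 0, 0, 55374, 0, 0, 0, 0, 0, 0⟩ ⟨0, 0, 0, 0, 0, 0, 61593, 0, 0, 0, 0, 0, 0⟩ ⟨0, 0, 0, 0, 0, 0, 61593, 0, 0, 0, 0, 0, 0⟩ ⟨512, -2, -459, 10, -29, 153, 69384, 0, 0, 0, 0, 0, 0⟩)))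
    (.s2
    (.leaf (.box ⟨512, -5, -119, 27, -24, 90, 48480, 0, 0, 0, 0, 0, 0⟩ ⟨0, 0, 0, 0, 0, 0, 51686, 0, 0, 0, 0, 0, 0⟩ ⟨0, 0, 0, 0, 0, 0, 51686, 0, 0, 0, 0, 0, 0⟩ ⟨0, 0, 0, 0, 0, 0, 55345, 0, 0, 0, 0, 0, 0⟩ ⟨0, 0, 0, 0, 0, 0, 55345, 0, 0, 0, 0, 0, 0⟩ ⟨512, -4, -456, 26, -28, 133, 59561, 0, 0, 0, 0, 0, 0⟩))
    (.s1
    (.leaf (.box ⟨512, -7, -503, 33, -35, 141, 44450, 0, 0, 0, 0, 0, 0⟩ ⟨0, 0, 0, 0, 0, 0, 47398, 0, 0, 0, 0, 0, 0⟩ ⟨0, 0, 0, 0, 0, 0, 47398, 0, 0, 0, 0, 0, 0⟩ ⟨0, 0, 0, 0, 0, 0, 50763, 0, 0, 0, 0, 0, 0⟩ ⟨0, 0, 0, 0, 0, 0, 50763, 0, 0, 0, 0, 0, 0⟩ ⟨226, -3, -512, 16, -18, 94, 54643, 0, 0, 0, 0, 0, 915289617⟩))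
    (.leaf (.box ⟨512, -3, -158, 12, -39, 137, 51206, 0, 0, 0, 0, 0, 0⟩ ⟨0, 0, 0, 0, 0, 0, 55508, 0, 0, 0, 0, 0, 0⟩ ⟨0, 0, 0, 0, 0, 0, 55508, 0, 0, 0, 0, 0, 0⟩ ⟨0, 0, 0, 0, 0, 0, 60598, 0, 0, 0, 0, 0, 0⟩ ⟨0, 0, 0, 0, 0, 0, 60598, 0, 0, 0, 0, 0, 0⟩ ⟨448, -2, -512, 8, -30, 145, 66716, 0, 0, 0, 0, 0, 0⟩)))))
    (.s2
    (.leaf (.box ⟨512, -4, -99, 25, -23, 80, 48582, 0, 0, 0, 0, 0, 0⟩ ⟨0, 0, 0, 0, 0, 0, 50165, 0, 0, 0, 0, 0, 0⟩ ⟨0, 0, 0, 0, 0, 0, 50165, 0, 0, 0, 0, 0, 0⟩ ⟨0, 0, 0, 0, 0, 0, 51855, 0, 0, 0, 0, 0, 0⟩ ⟨0, 0, 0, 0, 0, 0, 51855, 0, 0, 0, 0, 0, 0⟩ ⟨512, -5, -425, 30, -31, 127, 53662, 0, 0, 0, 0, 0, 0⟩))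
    (.leaf (.box ⟨512, -3, -220, 14, -14, 98, 101562, 0, 0, 0, 0, 0, 0⟩ ⟨512, -7, -313, 31, -31, 104, 46981, 0, 0, 0, 0, 0, 0⟩ ⟨512, -7, -313, 31, -31, 104, 46981, 0, 0, 0, 0, 0, 0⟩ ⟨512, -7, -418, 31, -32, 112, 47550, 0, 0, 0, 0, 0, 0⟩ ⟨512, -7, -418, 31, -32, 112, 47550, 0, 0, 0, 0, 0, 0⟩ ⟨484, -2, -512, 11, -12, 115, 129644, 0, 0, 0, 0, 0, 892825121⟩))))))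
    (.s1
    (.s2
    (.leaf (.box ⟨383, -2, -512, 32, -2, 68, 57922, 0, 0, 0, 0, 0, 0⟩ ⟨0, 0, 0, 0, 0, 0, 60188, 0, 0, 0, 0, 0, 0⟩ ⟨0, 0, 0, 0, 0, 0, 60188, 0, 0, 0, 0, 0, 0⟩ ⟨0, 0, 0, 0, 0, 0, 62637, 0, 0, 0, 0, 0, 0⟩ ⟨0, 0, 0, 0, 0, 0, 62637, 0, 0, 0, 0, 0, 0⟩ ⟨263, -2, -512, 33, -3, 86, 65294, 0, 0, 0, 0, 0, 0⟩))
    (.s2
    (.leaf (.box ⟨335, -4, -512, 30, -5, 72, 54028, 0, 0, 0, 0, 0, 0⟩ ⟨0, 0, 0, 0, 0, 0, 56232, 0, 0, 0, 0, 0, 0⟩ ⟨0, 0, 0, 0, 0, 0, 56232, 0, 0, 0, 0, 0, 0⟩ ⟨0, 0, 0, 0, 0, 0, 58623, 0, 0, 0, 0, 0, 0⟩ ⟨0, 0, 0, 0, 0, 0, 58623, 0, 0, 0, 0, 0, 0⟩ ⟨203, -3, -512, 26, -5, 79, 61226, 0, 0, 0, 0, 0, 0⟩))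
    (.leaf (.box ⟨262, -3, -512, 15, -4, 77, 109301, 0, 0, 0, 0, 0, 0⟩ ⟨216, -5, -512, 29, -8, 77, 53661, 0, 0, 0, 0, 0, 0⟩ ⟨216, -5, -512, 29, -8, 77, 53661, 0, 0, 0, 0, 0, 0⟩ ⟨200, -5, -512, 28, -8, 77, 54768, 0, 0, 0, 0, 0, 0⟩ ⟨200, -5, -512, 28, -8, 77, 54768, 0, 0, 0, 0, 0, 0⟩ ⟨227, -2, -512, 10, -3, 77, 150605, 0, 0, 0, 0, 0, 0⟩))))
    (.s2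
    (.leaf (.box ⟨512, -3, -392, 23, -14, 95, 61842, 0, 0, 0, 0, 0, 0⟩ ⟨0, 0, 0, 0, 0, 0, 64811, 0, 0, 0, 0, 0, 0⟩ ⟨0, 0, 0, 0, 0, 0, 64811, 0, 0, 0, 0, 0, 0⟩ ⟨0, 0, 0, 0, 0, 0, 68079, 0, 0, 0, 0, 0, 0⟩ ⟨0, 0, 0, 0, 0, 0, 68079, 0, 0, 0, 0, 0, 0⟩ ⟨444, -3, -512, 24, -16, 123, 71693, 0, 0, 0, 0, 0, 0⟩))
    (.s2
    (.leaf (.box ⟨512, -2, -438, 16, -19, 97, 58966, 0, 0, 0, 0, 0, 0⟩ ⟨0, 0, 0, 0, 0, 0, 62006, 0, 0, 0, 0, 0, 0⟩ ⟨0, 0, 0, 0, 0, 0, 62006, 0, 0, 0, 0, 0, 0⟩ ⟨0, 0, 0, 0, 0, 0, 65376, 0, 0, 0, 0, 0, 0⟩ ⟨0, 0, 0, 0, 0, 0, 65376, 0, 0, 0, 0, 0, 0⟩ ⟨394, -2, -512, 13, -16, 98, 69133, 0, 0, 0, 0, 0, 0⟩))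
    (.leaf (.box ⟨488, -2, -512, 13, -22, 99, 56662, 0, 0, 0, 0, 0, 0⟩ ⟨0, 0, 0, 0, 0, 0, 59843, 0, 0, 0, 0, 0, 0⟩ ⟨0, 0, 0, 0, 0, 0, 59843, 0, 0, 0, 0, 0, 0⟩ ⟨0, 0, 0, 0, 0, 0, 63402, 0, 0, 0, 0, 0, 0⟩ ⟨0, 0, 0, 0, 0, 0, 63402, 0, 0, 0, 0, 0, 0⟩ ⟨337, -1, -512, 9, -15, 82, 67410, 0, 0, 0, 0, 0, 0⟩)))))

/-- A piece of the tree. -/
noncomputable def tree2 : Tree LeafX :=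
  .s1
    (.s0
    (.s2
    (.leaf (.box ⟨501, 1, 512, 14, -30, 125, 47799, 0, 0, 0, 0, 0, 0⟩ ⟨0, 0, 0, 0, 0, 0, 49301, 0, 0, 0, 0, 0, 0⟩ ⟨0, 0, 0, 0, 0, 0, 49301, 0, 0, 0, 0, 0, 0⟩ ⟨0, 0, 0, 0, 0, 0, 50900, 0, 0, 0, 0, 0, 0⟩ ⟨0, 0, 0, 0, 0, 0, 50900, 0, 0, 0, 0, 0, 0⟩ ⟨512, 1, 246, 17, -36, 163, 52606, 0, 0, 0, 0, 0, 0⟩))
    (.leaf (.box ⟨512, -2, 294, 24, -22, 86, 38919, 0, 0, 0, 0, 0, 0⟩ ⟨0, 0, 0, 0, 0, 0, 40514, 0, 0, 0, 0, 0, 0⟩ ⟨0, 0, 0, 0, 0, 0, 40514, 0, 0, 0, 0, 0, 0⟩ ⟨0, 0, 0, 0, 0, 0, 42244, 0, 0, 0, 0, 0, 0⟩ ⟨0, 0, 0, 0, 0, 0, 42244, 0, 0, 0, 0, 0, 0⟩ ⟨512, -2, 90, 26, -24, 109, 44128, 0, 0, 0, 0, 0, 0⟩)))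
    (.leaf (.box ⟨512, 0, -206, 16, -16, 96, 56483, 0, 0, 0, 0, 0, 0⟩ ⟨0, 0, 0, 0, 0, 0, 59105, 0, 0, 0, 0, 0, 0⟩ ⟨0, 0, 0, 0, 0, 0, 59105, 0, 0, 0, 0, 0, 0⟩ ⟨0, 0, 0, 0, 0, 0, 61982, 0, 0, 0, 0, 0, 0⟩ ⟨0, 0, 0, 0, 0, 0, 61982, 0, 0, 0, 0, 0, 0⟩ ⟨512, 0, -337, 15, -15, 108, 65152, 0, 0, 0, 0, 0, 0⟩)))
    (.s0
    (.leaf (.box ⟨512, -1, 431, 35, -9, 85, 38939, 0, 0, 0, 0, 0, 0⟩ ⟨0, 0, 0, 0, 0, 0, 40529, 0, 0, 0, 0, 0, 0⟩ ⟨0, 0, 0, 0, 0, 0, 40529, 0, 0, 0, 0, 0, 0⟩ ⟨0, 0, 0, 0, 0, 0, 42254, 0, 0, 0, 0, 0, 0⟩ ⟨0, 0, 0, 0, 0, 0, 42254, 0, 0, 0, 0, 0, 0⟩ ⟨512, -1, 322, 36, -9, 98, 44131, 0, 0, 0, 0, 0, 0⟩))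
    (.leaf (.box ⟨512, 0, -37, 20, -7, 92, 56826, 0, 0, 0, 0, 0, 0⟩ ⟨0, 0, 0, 0, 0, 0, 59356, 0, 0, 0, 0, 0, 0⟩ ⟨0, 0, 0, 0, 0, 0, 59356, 0, 0, 0, 0, 0, 0⟩ ⟨0, 0, 0, 0, 0, 0, 62122, 0, 0, 0, 0, 0, 0⟩ ⟨0, 0, 0, 0, 0, 0, 62122, 0, 0, 0, 0, 0, 0⟩ ⟨512, 0, -110, 17, -6, 89, 65157, 0, 0, 0, 0, 0, 0⟩)))

/-- A piece of the tree. -/
noncomputable def tree3 : Tree LeafX :=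
  .s2
    (.s1
    (.leaf (.box ⟨168, 2, -512, 25, 10, 61, 84923, 0, 0, 0, 0, 0, 0⟩ ⟨0, 0, 0, 0, 0, 0, 88807, 0, 0, 0, 0, 0, 0⟩ ⟨0, 0, 0, 0, 0, 0, 88807, 0, 0, 0, 0, 0, 0⟩ ⟨0, 0, 0, 0, 0, 0, 93063, 0, 0, 0, 0, 0, 0⟩ ⟨0, 0, 0, 0, 0, 0, 93063, 0, 0, 0, 0, 0, 0⟩ ⟨264, 3, -512, 38, 14, 88, 97747, 0, 0, 0, 0, 0, 0⟩))
    (.leaf (.box ⟨170, -1, -512, 20, 1, 67, 78160, 0, 0, 0, 0, 0, 0⟩ ⟨0, 0, 0, 0, 0, 0, 81745, 0, 0, 0, 0, 0, 0⟩ ⟨0, 0, 0, 0, 0, 0, 81745, 0, 0, 0, 0, 0, 0⟩ ⟨0, 0, 0, 0, 0, 0, 85673, 0, 0, 0, 0, 0, 0⟩ ⟨0, 0, 0, 0, 0, 0, 85673, 0, 0, 0, 0, 0, 0⟩ ⟨135, -1, -512, 22, 1, 85, 89998, 0, 0, 0, 0, 0, 0⟩)))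
    (.s1
    (.s2
    (.leaf (.box ⟨183, -2, -512, 27, 10, 66, 83742, 0, 0, 0, 0, 0, 0⟩ ⟨0, 0, 0, 0, 0, 0, 88006, 0, 0, 0, 0, 0, 0⟩ ⟨0, 0, 0, 0, 0, 0, 88006, 0, 0, 0, 0, 0, 0⟩ ⟨0, 0, 0, 0, 0, 0, 92727, 0, 0, 0, 0, 0, 0⟩ ⟨0, 0, 0, 0, 0, 0, 92727, 0, 0, 0, 0, 0, 0⟩ ⟨339, -3, -512, 35, 11, 93, 97982, 0, 0, 0, 0, 0, 0⟩))
    (.leaf (.box ⟨279, -7, -512, 35, 9, 76, 82830, 0, 0, 0, 0, 0, 0⟩ ⟨0, 0, 0, 0, 0, 0, 87449, 0, 0, 0, 0, 0, 0⟩ ⟨0, 0, 0, 0, 0, 0, 87449, 0, 0, 0, 0, 0, 0⟩ ⟨0, 0, 0, 0, 0, 0, 92614, 0, 0, 0, 0, 0, 0⟩ ⟨0, 0, 0, 0, 0, 0, 92614, 0, 0, 0, 0, 0, 0⟩ ⟨444, -6, -512, 36, 9, 103, 98426, 0, 0, 0, 0, 0, 0⟩)))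
    (.s2
    (.leaf (.box ⟨132, -2, -512, 18, -3, 71, 77482, 0, 0, 0, 0, 0, 0⟩ ⟨0, 0, 0, 0, 0, 0, 81056, 0, 0, 0, 0, 0, 0⟩ ⟨0, 0, 0, 0, 0, 0, 81056, 0, 0, 0, 0, 0, 0⟩ ⟨0, 0, 0, 0, 0, 0, 84975, 0, 0, 0, 0, 0, 0⟩ ⟨0, 0, 0, 0, 0, 0, 84975, 0, 0, 0, 0, 0, 0⟩ ⟨147, -2, -512, 17, -3, 80, 89292, 0, 0, 0, 0, 0, 0⟩))
    (.leaf (.box ⟨138, -3, -512, 19, -7, 75, 77405, 0, 0, 0, 0, 0, 0⟩ ⟨0, 0, 0, 0, 0, 0, 80981, 0, 0, 0, 0, 0, 0⟩ ⟨0, 0, 0, 0, 0, 0, 80981, 0, 0, 0, 0, 0, 0⟩ ⟨0, 0, 0, 0, 0, 0, 84902, 0, 0, 0, 0, 0, 0⟩ ⟨0, 0, 0, 0, 0, 0, 84902, 0, 0, 0, 0, 0, 0⟩ ⟨187, -2, -512, 14, -6, 78, 89222, 0, 0, 0, 0, 0, 0⟩))))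

/-- A piece of the tree. -/
noncomputable def tree4 : Tree LeafX :=
  .s2
    (.s3
    (.s2
    (.s1
    (.s1
    (.leaf (.skip 0 8))
    (.leaf (.box ⟨151, 3, -512, 19, 17, 84, 131207, 0, 0, 0, 0, 0, 0⟩ ⟨0, 0, 0, 0, 0, 0, 139111, 0, 0, 0, 0, 0, 0⟩ ⟨0, 0, 0, 0, 0, 0, 139111, 0, 0, 0, 0, 0, 0⟩ ⟨0, 0, 0, 0, 0, 0, 148029, 0, 0, 0, 0, 0, 0⟩ ⟨0, 0, 0, 0, 0, 0, 148029, 0, 0, 0, 0, 0, 0⟩ ⟨327, 10, -512, 33, 27, 135, 158167, 0, 0, 0, 0, 0, 0⟩)))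
    (.leaf (.box ⟨120, 2, -512, 17, 8, 81, 115798, 0, 0, 0, 0, 0, 0⟩ ⟨0, 0, 0, 0, 0, 0, 123746, 0, 0, 0, 0, 0, 0⟩ ⟨0, 0, 0, 0, 0, 0, 123746, 0, 0, 0, 0, 0, 0⟩ ⟨0, 0, 0, 0, 0, 0, 132864, 0, 0, 0, 0, 0, 0⟩ ⟨0, 0, 0, 0, 0, 0, 132864, 0, 0, 0, 0, 0, 0⟩ ⟨231, 3, -512, 22, 10, 105, 143433, 0, 0, 0, 0, 0, 0⟩)))
    (.s3
    (.s1
    (.s1
    (.leaf (.skip 0 8))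
    (.leaf (.box ⟨139, 2, -512, 20, 19, 89, 130875, 0, 0, 0, 0, 0, 0⟩ ⟨0, 0, 0, 0, 0, 0, 141754, 0, 0, 0, 0, 0, 0⟩ ⟨0, 0, 0, 0, 0, 0, 141754, 0, 0, 0, 0, 0, 0⟩ ⟨0, 0, 0, 0, 0, 0, 154605, 0, 0, 0, 0, 0, 0⟩ ⟨0, 0, 0, 0, 0, 0, 154605, 0, 0, 0, 0, 0, 0⟩ ⟨401, 4, -512, 33, 26, 153, 170018, 0, 0, 0, 0, 0, 0⟩)))
    (.leaf (.box ⟨123, 0, -512, 8, 3, 85, 254511, 0, 0, 0, 0, 0, 0⟩ ⟨154, 1, -512, 19, 6, 91, 127636, 0, 0, 0, 0, 0, 0⟩ ⟨154, 1, -512, 19, 6, 91, 127636, 0, 0, 0, 0, 0, 0⟩ ⟨199, 1, -512, 20, 6, 99, 138321, 0, 0, 0, 0, 0, 0⟩ ⟨199, 1, -512, 20, 6, 99, 138321, 0, 0, 0, 0, 0, 0⟩ ⟨274, 0, -524, 6, 2, 112, 536735, 0, 0, 0, 0, 0, 0⟩)))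
    (.s1
    (.leaf (.box ⟨143, 4, -512, 32, 25, 84, 132688, 0, 0, 0, 0, 0, 0⟩ ⟨0, 0, 0, 0, 0, 0, 141268, 0, 0, 0, 0, 0, 0⟩ ⟨0, 0, 0, 0, 0, 0, 141268, 0, 0, 0, 0, 0, 0⟩ ⟨0, 0, 0, 0, 0, 0, 151033, 0, 0, 0, 0, 0, 0⟩ ⟨0, 0, 0, 0, 0, 0, 151033, 0, 0, 0, 0, 0, 0⟩ ⟨512, 9, -438, 56, 36, 138, 162249, 0, 0, 0, 0, 0, 0⟩))
    (.leaf (.box ⟨118, 1, -512, 17, 7, 81, 117759, 0, 0, 0, 0, 0, 0⟩ ⟨0, 0, 0, 0, 0, 0, 125794, 0, 0, 0, 0, 0, 0⟩ ⟨0, 0, 0, 0, 0, 0, 125794, 0, 0, 0, 0, 0, 0⟩ ⟨0, 0, 0, 0, 0, 0, 135005, 0, 0, 0, 0, 0, 0⟩ ⟨0, 0, 0, 0, 0, 0, 135005, 0, 0, 0, 0, 0, 0⟩ ⟨247, 1, -512, 21, 8, 104, 145671, 0, 0, 0, 0, 0, 0⟩)))))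
    (.s1
    (.leaf (.box ⟨161, 2, -512, 13, 10, 76, 302010, 0, 0, 0, 0, 0, 0⟩ ⟨206, 6, -512, 31, 25, 84, 141421, 0, 0, 0, 0, 0, 0⟩ ⟨206, 6, -512, 31, 25, 84, 141421, 0, 0, 0, 0, 0, 0⟩ ⟨298, 9, -512, 43, 31, 99, 137648, 0, 0, 0, 0, 0, 0⟩ ⟨298, 9, -512, 43, 31, 99, 137648, 0, 0, 0, 0, 0, 0⟩ ⟨496, 7, -512, 25, 17, 128, 355786, 0, 0, 0, 443163, 0, 0⟩))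
    (.leaf (.box ⟨136, 1, -512, 8, 4, 75, 266854, 0, 0, 0, 0, 0, 0⟩ ⟨154, 2, -512, 20, 10, 80, 123556, 0, 0, 0, 0, 0, 0⟩ ⟨154, 2, -512, 20, 10, 80, 123556, 0, 0, 0, 0, 0, 0⟩ ⟨183, 2, -512, 23, 11, 87, 124343, 0, 0, 0, 0, 0, 0⟩ ⟨183, 2, -512, 23, 11, 87, 124343, 0, 0, 0, 0, 0, 0⟩ ⟨232, 1, -512, 10, 5, 97, 336745, 0, 0, 0, 0, 0, 0⟩))))
    (.s2
    (.s1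
    (.s1
    (.leaf (.skip 0 8))
    (.leaf (.box ⟨226, 0, -512, 11, 9, 88, 280970, 0, 0, 0, 0, 0, 0⟩ ⟨289, -1, -512, 25, 20, 101, 141887, 0, 0, 0, 0, 0, 0⟩ ⟨289, -1, -512, 25, 20, 101, 141887, 0, 0, 0, 0, 0, 0⟩ ⟨385, -1, -512, 30, 23, 120, 145440, 0, 0, 0, 0, 0, 0⟩ ⟨385, -1, -512, 30, 23, 120, 145440, 0, 0, 0, 0, 0, 0⟩ ⟨512, -1, -492, 14, 10, 145, 401631, 0, 0, 0, 0, 0, 0⟩)))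
    (.s0
    (.leaf (.box ⟨125, -1, -512, 14, 3, 77, 118365, 0, 0, 0, 0, 0, 0⟩ ⟨0, 0, 0, 0, 0, 0, 123774, 0, 0, 0, 0, 0, 0⟩ ⟨0, 0, 0, 0, 0, 0, 123774, 0, 0, 0, 0, 0, 0⟩ ⟨0, 0, 0, 0, 0, 0, 129701, 0, 0, 0, 0, 0, 0⟩ ⟨0, 0, 0, 0, 0, 0, 129701, 0, 0, 0, 0, 0, 0⟩ ⟨207, -1, -512, 15, 3, 94, 136223, 0, 0, 0, 0, 0, 0⟩))
    (.leaf (.box ⟨162, 0, -512, 8, 3, 91, 330039, 0, 0, 0, 0, 0, 0⟩ ⟨206, -1, -512, 17, 7, 98, 162370, 0, 0, 0, 0, 0, 0⟩ ⟨206, -1, -512, 17, 7, 98, 162370, 0, 0, 0, 0, 0, 0⟩ ⟨256, -1, -512, 17, 8, 107, 165948, 0, 0, 0, 0, 0, 0⟩ ⟨256, -1, -512, 17, 8, 107, 165948, 0, 0, 0, 0, 0, 0⟩ ⟨319, 0, -512, 7, 3, 118, 456951, 0, 0, 0, 0, 0, 0⟩))))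
    (.s2
    (.s1
    (.leaf (.box ⟨350, -8, -512, 49, 29, 105, 134402, 0, 0, 0, 0, 0, 0⟩ ⟨0, 0, 0, 0, 0, 0, 142078, 0, 0, 0, 0, 0, 0⟩ ⟨0, 0, 0, 0, 0, 0, 142078, 0, 0, 0, 0, 0, 0⟩ ⟨0, 0, 0, 0, 0, 0, 150683, 0, 0, 0, 0, 0, 0⟩ ⟨0, 0, 0, 0, 0, 0, 150683, 0, 0, 0, 0, 0, 0⟩ ⟨512, -6, -223, 38, 21, 100, 160397, 0, 0, 0, 0, 0, 0⟩))
    (.leaf (.box ⟨216, -3, -512, 20, 4, 91, 121831, 0, 0, 0, 0, 0, 0⟩ ⟨0, 0, 0, 0, 0, 0, 127822, 0, 0, 0, 0, 0, 0⟩ ⟨0, 0, 0, 0, 0, 0, 127822, 0, 0, 0, 0, 0, 0⟩ ⟨0, 0, 0, 0, 0, 0, 134431, 0, 0, 0, 0, 0, 0⟩ ⟨0, 0, 0, 0, 0, 0, 134431, 0, 0, 0, 0, 0, 0⟩ ⟨370, -3, -512, 20, 3, 111, 141761, 0, 0, 0, 0, 0, 0⟩)))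
    (.leaf (.box ⟨512, -17, -467, 72, 15, 101, 124071, 0, 0, 0, 0, 2352584933, 0⟩ ⟨0, 0, 0, 0, 0, 0, 130370, 0, 0, 0, 0, 0, 0⟩ ⟨0, 0, 0, 0, 0, 0, 130370, 0, 0, 0, 0, 0, 0⟩ ⟨0, 0, 0, 0, 0, 0, 137343, 0, 0, 0, 0, 0, 0⟩ ⟨0, 0, 0, 0, 0, 0, 137343, 0, 0, 0, 0, 0, 0⟩ ⟨512, -8, -236, 42, 8, 76, 145103, 0, 0, 0, 0, 6634742433, 0⟩))))

/-- A piece of the tree. -/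
noncomputable def tree5 : Tree LeafX :=
  .s2
    (.s0
    (.leaf (.box ⟨422, -1, -512, 18, -4, 85, 71778, 0, 0, 0, 0, 0, 0⟩ ⟨0, 0, 0, 0, 0, 0, 74758, 0, 0, 0, 0, 0, 0⟩ ⟨0, 0, 0, 0, 0, 0, 74758, 0, 0, 0, 0, 0, 0⟩ ⟨0, 0, 0, 0, 0, 0, 77996, 0, 0, 0, 0, 0, 0⟩ ⟨0, 0, 0, 0, 0, 0, 77996, 0, 0, 0, 0, 0, 0⟩ ⟨325, -1, -512, 16, -4, 90, 81526, 0, 0, 0, 0, 0, 0⟩))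
    (.s1
    (.s2
    (.leaf (.box ⟨118, 0, -512, 13, 2, 76, 103847, 0, 0, 0, 0, 0, 0⟩ ⟨0, 0, 0, 0, 0, 0, 108677, 0, 0, 0, 0, 0, 0⟩ ⟨0, 0, 0, 0, 0, 0, 108677, 0, 0, 0, 0, 0, 0⟩ ⟨0, 0, 0, 0, 0, 0, 113977, 0, 0, 0, 0, 0, 0⟩ ⟨0, 0, 0, 0, 0, 0, 113977, 0, 0, 0, 0, 0, 0⟩ ⟨118, 0, -512, 13, 2, 86, 119820, 0, 0, 0, 0, 0, 0⟩))
    (.leaf (.box ⟨121, 0, -512, 12, 0, 78, 105323, 0, 0, 0, 0, 0, 0⟩ ⟨0, 0, 0, 0, 0, 0, 110203, 0, 0, 0, 0, 0, 0⟩ ⟨0, 0, 0, 0, 0, 0, 110203, 0, 0, 0, 0, 0, 0⟩ ⟨0, 0, 0, 0, 0, 0, 115556, 0, 0, 0, 0, 0, 0⟩ ⟨0, 0, 0, 0, 0, 0, 115556, 0, 0, 0, 0, 0, 0⟩ ⟨134, 0, -512, 11, 0, 85, 121455, 0, 0, 0, 0, 0, 0⟩)))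
    (.leaf (.box ⟨120, -1, -733, 6, -1, 110, 201387, 0, 0, 0, 0, 0, 0⟩ ⟨70, -1, -512, 8, -1, 78, 105107, 0, 0, 0, 0, 0, 0⟩ ⟨70, -1, -512, 8, -1, 78, 105107, 0, 0, 0, 0, 0, 0⟩ ⟨65, -1, -512, 7, -1, 79, 111186, 0, 0, 0, 0, 0, 0⟩ ⟨65, -1, -512, 7, -1, 79, 111186, 0, 0, 0, 0, 0, 0⟩ ⟨150, -1, -1219, 6, -1, 189, 312440, 0, 0, 0, 0, 0, 0⟩))))
    (.s0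
    (.s1
    (.leaf (.box ⟨216, 0, -512, 11, -9, 77, 71913, 0, 0, 0, 0, 0, 0⟩ ⟨0, 0, 0, 0, 0, 0, 74371, 0, 0, 0, 0, 0, 0⟩ ⟨0, 0, 0, 0, 0, 0, 74371, 0, 0, 0, 0, 0, 0⟩ ⟨0, 0, 0, 0, 0, 0, 77002, 0, 0, 0, 0, 0, 0⟩ ⟨0, 0, 0, 0, 0, 0, 77002, 0, 0, 0, 0, 0, 0⟩ ⟨189, 0, -512, 10, -8, 73, 79825, 0, 0, 0, 0, 0, 0⟩))
    (.leaf (.box ⟨308, 0, -512, 7, -6, 80, 69984, 0, 0, 0, 0, 0, 0⟩ ⟨0, 0, 0, 0, 0, 0, 72357, 0, 0, 0, 0, 0, 0⟩ ⟨0, 0, 0, 0, 0, 0, 72357, 0, 0, 0, 0, 0, 0⟩ ⟨0, 0, 0, 0, 0, 0, 74897, 0, 0, 0, 0, 0, 0⟩ ⟨0, 0, 0, 0, 0, 0, 74897, 0, 0, 0, 0, 0, 0⟩ ⟨264, 0, -512, 6, -5, 74, 77620, 0, 0, 0, 0, 0, 0⟩)))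
    (.s1
    (.s2
    (.leaf (.box ⟨128, -1, -512, 11, -3, 80, 108315, 0, 0, 0, 0, 0, 0⟩ ⟨0, 0, 0, 0, 0, 0, 113164, 0, 0, 0, 0, 0, 0⟩ ⟨0, 0, 0, 0, 0, 0, 113164, 0, 0, 0, 0, 0, 0⟩ ⟨0, 0, 0, 0, 0, 0, 118467, 0, 0, 0, 0, 0, 0⟩ ⟨0, 0, 0, 0, 0, 0, 118467, 0, 0, 0, 0, 0, 0⟩ ⟨156, 0, -512, 10, -3, 84, 124291, 0, 0, 0, 0, 0, 0⟩))
    (.leaf (.box ⟨154, -1, -512, 9, -6, 84, 112823, 0, 0, 0, 0, 0, 0⟩ ⟨0, 0, 0, 0, 0, 0, 117560, 0, 0, 0, 0, 0, 0⟩ ⟨0, 0, 0, 0, 0, 0, 117560, 0, 0, 0, 0, 0, 0⟩ ⟨0, 0, 0, 0, 0, 0, 122712, 0, 0, 0, 0, 0, 0⟩ ⟨0, 0, 0, 0, 0, 0, 122712, 0, 0, 0, 0, 0, 0⟩ ⟨181, -1, -512, 9, -5, 83, 128335, 0, 0, 0, 0, 0, 0⟩)))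
    (.leaf (.box ⟨97, 0, -525, 6, -5, 79, 104725, 0, 0, 0, 0, 0, 0⟩ ⟨0, 0, 0, 0, 0, 0, 109956, 0, 0, 0, 0, 0, 0⟩ ⟨0, 0, 0, 0, 0, 0, 109956, 0, 0, 0, 0, 0, 0⟩ ⟨0, 0, 0, 0, 0, 0, 115737, 0, 0, 0, 0, 0, 0⟩ ⟨0, 0, 0, 0, 0, 0, 115737, 0, 0, 0, 0, 0, 0⟩ ⟨108, 0, -624, 6, -5, 91, 122158, 0, 0, 0, 0, 0, 0⟩))))

/-- A piece of the tree. -/
noncomputable def tree6 : Tree LeafX :=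
  .s1
    (.leaf (.box ⟨512, -1, 114, 9, -3, 78, 121110, 0, 0, 0, 0, 0, 0⟩ ⟨512, -2, 116, 21, -6, 92, 61246, 0, 0, 0, 0, 0, 0⟩ ⟨512, -2, 116, 21, -6, 92, 61246, 0, 0, 0, 0, 0, 0⟩ ⟨512, -2, 119, 23, -8, 112, 61918, 0, 0, 0, 0, 0, 0⟩ ⟨512, -2, 119, 23, -8, 112, 61918, 0, 0, 0, 0, 0, 0⟩ ⟨512, -1, 118, 10, -3, 136, 168598, 0, 0, 0, 0, 0, 0⟩))
    (.s1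
    (.s2
    (.s0
    (.leaf (.box ⟨512, -4, 199, 15, -3, 144, 63555, 0, 0, 0, 0, 0, 0⟩ ⟨0, 0, 0, 0, 0, 0, 67651, 0, 0, 0, 0, 0, 0⟩ ⟨0, 0, 0, 0, 0, 0, 67651, 0, 0, 0, 0, 0, 0⟩ ⟨0, 0, 0, 0, 0, 0, 72311, 0, 0, 0, 0, 0, 0⟩ ⟨0, 0, 0, 0, 0, 0, 72311, 0, 0, 0, 0, 0, 0⟩ ⟨512, -4, 436, 18, -6, 263, 77660, 0, 0, 0, 0, 0, 0⟩))
    (.leaf (.box ⟨512, -7, -9, 30, 0, 248, 78390, 0, 0, 0, 0, 0, 0⟩ ⟨0, 0, 0, 0, 0, 0, 82933, 0, 0, 0, 0, 0, 0⟩ ⟨0, 0, 0, 0, 0, 0, 82933, 0, 0, 0, 0, 0, 0⟩ ⟨0, 0, 0, 0, 0, 0, 88034, 0, 0, 0, 0, 0, 0⟩ ⟨0, 0, 0, 0, 0, 0, 88034, 0, 0, 0, 0, 0, 0⟩ ⟨512, -7, -75, 30, 1, 319, 93803, 0, 0, 0, 0, 0, 0⟩)))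
    (.leaf (.box ⟨512, -9, 244, 18, -7, 85, 58780, 0, 0, 0, 0, 0, 0⟩ ⟨0, 0, 0, 0, 0, 0, 62509, 0, 0, 0, 0, 0, 0⟩ ⟨0, 0, 0, 0, 0, 0, 62509, 0, 0, 0, 0, 0, 0⟩ ⟨0, 0, 0, 0, 0, 0, 66742, 0, 0, 0, 0, 0, 0⟩ ⟨0, 0, 0, 0, 0, 0, 66742, 0, 0, 0, 0, 0, 0⟩ ⟨512, -6, 165, 15, -7, 131, 71589, 0, 0, 0, 0, 0, 0⟩)))
    (.s2
    (.s0
    (.s0
    (.s2
    (.s2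
    (.leaf (.box ⟨512, -4, 343, 9, 5, 267, 127866, 0, 0, 0, 0, 0, 0⟩ ⟨512, -7, 493, 18, 10, 308, 69626, 0, 0, 0, 0, 0, 0⟩ ⟨512, -7, 493, 18, 10, 308, 69626, 0, 0, 0, 0, 0, 0⟩ ⟨390, -6, 512, 15, 8, 271, 76024, 0, 0, 0, 0, 0, 0⟩ ⟨390, -6, 512, 15, 8, 271, 76024, 0, 0, 0, 0, 0, 0⟩ ⟨366, -2, 636, 6, 3, 296, 220993, 0, 0, 0, 0, 0, 0⟩))
    (.leaf (.box ⟨512, -8, 443, 17, 7, 236, 64516, 0, 0, 0, 0, 0, 0⟩ ⟨0, 0, 0, 0, 0, 0, 69087, 0, 0, 0, 0, 0, 0⟩ ⟨0, 0, 0, 0, 0, 0, 69087, 0, 0, 0, 0, 0, 0⟩ ⟨0, 0, 0, 0, 0, 0, 74354, 0, 0, 0, 0, 0, 0⟩ ⟨0, 0, 0, 0, 0, 0, 74354, 0, 0, 0, 0, 0, 0⟩ ⟨295, -5, 512, 12, 5, 223, 80491, 0, 0, 0, 0, 0, 0⟩)))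
    (.leaf (.box ⟨512, -8, 510, 15, 4, 172, 63285, 0, 0, 0, 0, 0, 0⟩ ⟨0, 0, 0, 0, 0, 0, 67808, 0, 0, 0, 0, 0, 0⟩ ⟨0, 0, 0, 0, 0, 0, 67808, 0, 0, 0, 0, 0, 0⟩ ⟨0, 0, 0, 0, 0, 0, 73028, 0, 0, 0, 0, 0, 0⟩ ⟨0, 0, 0, 0, 0, 0, 73028, 0, 0, 0, 0, 0, 0⟩ ⟨327, -6, 512, 15, 4, 193, 79117, 0, 0, 0, 0, 0, 0⟩)))
    (.leaf (.box ⟨512, -8, 271, 20, 7, 253, 72355, 0, 0, 0, 0, 0, 0⟩ ⟨0, 0, 0, 0, 0, 0, 77416, 0, 0, 0, 0, 0, 0⟩ ⟨0, 0, 0, 0, 0, 0, 77416, 0, 0, 0, 0, 0, 0⟩ ⟨0, 0, 0, 0, 0, 0, 83237, 0, 0, 0, 0, 0, 0⟩ ⟨0, 0, 0, 0, 0, 0, 83237, 0, 0, 0, 0, 0, 0⟩ ⟨512, -7, 480, 22, 8, 395, 90005, 0, 0, 0, 0, 0, 0⟩)))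
    (.leaf (.box ⟨512, -14, -29, 32, 7, 248, 78726, 0, 0, 0, 0, 0, 0⟩ ⟨0, 0, 0, 0, 0, 0, 84174, 0, 0, 0, 0, 0, 0⟩ ⟨0, 0, 0, 0, 0, 0, 84174, 0, 0, 0, 0, 0, 0⟩ ⟨0, 0, 0, 0, 0, 0, 90431, 0, 0, 0, 0, 0, 0⟩ ⟨0, 0, 0, 0, 0, 0, 90431, 0, 0, 0, 0, 0, 0⟩ ⟨512, -10, -106, 29, 8, 314, 97692, 0, 0, 0, 0, 0, 0⟩)))
    (.s0
    (.leaf (.box ⟨512, -10, 422, 15, -2, 94, 59646, 0, 0, 0, 0, 0, 0⟩ ⟨0, 0, 0, 0, 0, 0, 63989, 0, 0, 0, 0, 0, 0⟩ ⟨0, 0, 0, 0, 0, 0, 63989, 0, 0, 0, 0, 0, 0⟩ ⟨0, 0, 0, 0, 0, 0, 69013, 0, 0, 0, 0, 0, 0⟩ ⟨0, 0, 0, 0, 0, 0, 69013, 0, 0, 0, 0, 0, 0⟩ ⟨512, -11, 461, 23, 1, 160, 74893, 0, 0, 0, 0, 0, 0⟩))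
    (.leaf (.box ⟨512, -21, 363, 28, -17, 191, 72835, 0, 0, 0, 0, 0, 0⟩ ⟨0, 0, 0, 0, 0, 0, 78457, 0, 0, 0, 0, 0, 0⟩ ⟨0, 0, 0, 0, 0, 0, 78457, 0, 0, 0, 0, 0, 0⟩ ⟨0, 0, 0, 0, 0, 0, 85020, 0, 0, 0, 0, 0, 0⟩ ⟨0, 0, 0, 0, 0, 0, 85020, 0, 0, 0, 0, 0, 0⟩ ⟨512, -8, -8, 15, -9, 220, 92780, 0, 0, 0, 0, 0, 0⟩)))))

/-- A piece of the tree. -/
noncomputable def tree7 : Tree LeafX :=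
  .s0
    (.s1
    (.s1
    (.s3
    (.s1
    (.s0
    (.leaf (.box ⟨512, -4, 378, 7, 7, 138, 124623, 0, 0, 0, 0, 0, 0⟩ ⟨512, -8, 466, 15, 16, 171, 69184, 0, 0, 0, 0, 0, 0⟩ ⟨512, -8, 466, 15, 16, 171, 69184, 0, 0, 0, 0, 0, 0⟩ ⟨460, -7, 512, 14, 15, 187, 80688, 0, 0, 0, 0, 0, 0⟩ ⟨460, -7, 512, 14, 15, 187, 80688, 0, 0, 0, 0, 0, 0⟩ ⟨603, -3, 818, 6, 7, 295, 291483, 0, 0, 0, 0, 0, 0⟩))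
    (.leaf (.box ⟨512, -11, 284, 21, 19, 241, 72952, 0, 0, 0, 0, 0, 0⟩ ⟨0, 0, 0, 0, 0, 0, 80333, 0, 0, 0, 0, 0, 0⟩ ⟨0, 0, 0, 0, 0, 0, 80333, 0, 0, 0, 0, 0, 0⟩ ⟨0, 0, 0, 0, 0, 0, 89375, 0, 0, 0, 0, 0, 0⟩ ⟨0, 0, 0, 0, 0, 0, 89375, 0, 0, 0, 0, 0, 0⟩ ⟨512, -8, 458, 19, 21, 373, 100710, 0, 0, 0, 0, 0, 0⟩)))
    (.leaf (.box ⟨512, -5, 229, 8, 8, 106, 124639, 0, 0, 0, 0, 0, 0⟩ ⟨512, -8, 256, 15, 17, 120, 69442, 0, 0, 0, 0, 0, 0⟩ ⟨512, -8, 256, 15, 17, 120, 69442, 0, 0, 0, 0, 0, 0⟩ ⟨512, -7, 289, 15, 17, 135, 80994, 0, 0, 0, 0, 0, 0⟩ ⟨512, -7, 289, 15, 17, 135, 80994, 0, 0, 0, 0, 0, 0⟩ ⟨620, -3, 391, 6, 6, 180, 288420, 0, 0, 0, 0, 0, 0⟩)))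
    (.leaf (.box ⟨512, -7, 188, 13, 11, 95, 63800, 0, 0, 0, 0, 0, 0⟩ ⟨0, 0, 0, 0, 0, 0, 68009, 0, 0, 0, 0, 0, 0⟩ ⟨0, 0, 0, 0, 0, 0, 68009, 0, 0, 0, 0, 0, 0⟩ ⟨0, 0, 0, 0, 0, 0, 72812, 0, 0, 0, 0, 0, 0⟩ ⟨0, 0, 0, 0, 0, 0, 72812, 0, 0, 0, 0, 0, 0⟩ ⟨512, -8, 311, 17, 14, 149, 78345, 0, 0, 0, 0, 0, 0⟩)))
    (.s2
    (.leaf (.box ⟨512, -6, 197, 12, 14, 104, 126499, 0, 0, 0, 0, 0, 0⟩ ⟨512, -11, 222, 23, 27, 111, 69118, 0, 0, 0, 0, 0, 0⟩ ⟨512, -11, 222, 23, 27, 111, 69118, 0, 0, 0, 0, 0, 0⟩ ⟨512, -10, 244, 22, 26, 113, 73783, 0, 0, 0, 0, 0, 0⟩ ⟨512, -10, 244, 22, 26, 113, 73783, 0, 0, 0, 0, 0, 0⟩ ⟨512, -4, 260, 8, 9, 111, 209316, 0, 0, 0, 0, 0, 0⟩))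
    (.leaf (.box ⟨512, -20, 333, 30, 26, 100, 64126, 0, 0, 0, 0, 0, 0⟩ ⟨0, 0, 0, 0, 0, 0, 68690, 0, 0, 0, 0, 0, 0⟩ ⟨0, 0, 0, 0, 0, 0, 68690, 0, 0, 0, 0, 0, 0⟩ ⟨0, 0, 0, 0, 0, 0, 73954, 0, 0, 0, 0, 0, 0⟩ ⟨0, 0, 0, 0, 0, 0, 73954, 0, 0, 0, 0, 0, 0⟩ ⟨512, -12, 297, 24, 21, 101, 80090, 0, 0, 0, 0, 0, 0⟩))))
    (.s0
    (.s1
    (.leaf (.box ⟨501, -9, 512, 24, 27, 101, 129778, 0, 0, 0, 0, 0, 0⟩ ⟨512, -14, 470, 39, 45, 91, 69771, 0, 0, 0, 0, 0, 0⟩ ⟨512, -14, 470, 39, 45, 91, 69771, 0, 0, 0, 0, 0, 0⟩ ⟨512, -12, 428, 35, 39, 81, 70302, 0, 0, 0, 0, 0, 0⟩ ⟨512, -12, 428, 35, 39, 81, 70302, 0, 0, 0, 0, 0, 0⟩ ⟨512, -4, 410, 12, 14, 74, 186238, 0, 0, 0, 0, 0, 0⟩))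
    (.s1
    (.leaf (.box ⟨413, -2, 512, 20, 31, 85, 142779, 0, 0, 0, 0, 0, 0⟩ ⟨466, -4, 512, 37, 57, 78, 71102, 0, 0, 0, 0, 0, 0⟩ ⟨466, -4, 512, 37, 57, 78, 71102, 0, 0, 0, 0, 0, 0⟩ ⟨512, -4, 498, 37, 55, 70, 66645, 0, 0, 0, 0, 0, 0⟩ ⟨512, -4, 498, 37, 55, 70, 66645, 0, 0, 0, 0, 0, 0⟩ ⟨512, -1, 462, 13, 19, 60, 164516, 0, 0, 0, 0, 0, 0⟩))
    (.leaf (.box ⟨388, 3, 512, 22, 35, 76, 149174, 0, 0, 0, 0, 0, 0⟩ ⟨446, 6, 512, 41, 63, 65, 71233, 0, 0, 0, 0, 0, 0⟩ ⟨446, 6, 512, 41, 63, 65, 71233, 0, 0, 0, 0, 0, 0⟩ ⟨512, 6, 482, 42, 60, 54, 62079, 0, 0, 0, 0, 0, 0⟩ ⟨512, 6, 482, 42, 60, 54, 62079, 0, 0, 0, 0, 0, 0⟩ ⟨512, 2, 408, 15, 21, 41, 139492, 0, 0, 0, 0, 0, 0⟩))))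
    (.leaf (.box ⟨512, -28, 203, 53, 52, 92, 67794, 0, 0, 0, 0, 0, 0⟩ ⟨0, 0, 0, 0, 0, 0, 70914, 0, 0, 0, 0, 0, 0⟩ ⟨0, 0, 0, 0, 0, 0, 70914, 0, 0, 0, 0, 0, 0⟩ ⟨0, 0, 0, 0, 0, 0, 74335, 0, 0, 0, 0, 0, 0⟩ ⟨0, 0, 0, 0, 0, 0, 74335, 0, 0, 0, 0, 0, 0⟩ ⟨512, -15, 219, 38, 38, 77, 78102, 0, 0, 0, 0, 0, 0⟩))))
    (.leaf (.box ⟨512, -49, -52, 61, 28, 104, 74038, 0, 0, 0, 0, 0, 0⟩ ⟨0, 0, 0, 0, 0, 0, 79101, 0, 0, 0, 0, 0, 0⟩ ⟨0, 0, 0, 0, 0, 0, 79101, 0, 0, 0, 0, 0, 0⟩ ⟨0, 0, 0, 0, 0, 0, 84907, 0, 0, 0, 0, 0, 0⟩ ⟨0, 0, 0, 0, 0, 0, 84907, 0, 0, 0, 0, 0, 0⟩ ⟨512, -27, -55, 50, 26, 120, 91632, 0, 0, 0, 0, 0, 0⟩))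

/-- A piece of the tree. -/
noncomputable def tree8 : Tree LeafX :=
  .s1
    (.s0
    (.s1
    (.leaf (.box ⟨512, -16, 427, 20, 6, 85, 60962, 0, 0, 0, 0, 0, 0⟩ ⟨0, 0, 0, 0, 0, 0, 65853, 0, 0, 0, 0, 0, 0⟩ ⟨0, 0, 0, 0, 0, 0, 65853, 0, 0, 0, 0, 0, 0⟩ ⟨0, 0, 0, 0, 0, 0, 71598, 0, 0, 0, 0, 0, 0⟩ ⟨0, 0, 0, 0, 0, 0, 71598, 0, 0, 0, 0, 0, 0⟩ ⟨512, -14, 382, 23, 9, 116, 78439, 0, 0, 0, 0, 0, 0⟩))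
    (.s0
    (.leaf (.box ⟨333, -10, 512, 13, 10, 71, 119315, 0, 0, 0, 0, 0, 0⟩ ⟨359, -18, 512, 25, 21, 79, 67859, 0, 0, 0, 0, 0, 0⟩ ⟨359, -18, 512, 25, 21, 79, 67859, 0, 0, 0, 0, 0, 0⟩ ⟨406, -16, 512, 24, 21, 86, 75561, 0, 0, 0, 0, 0, 0⟩ ⟨406, -16, 512, 24, 21, 86, 75561, 0, 0, 0, 0, 0, 0⟩ ⟨450, -5, 512, 9, 8, 92, 219571, 0, 0, 0, 0, 0, 0⟩))
    (.leaf (.box ⟨360, -25, 512, 27, 15, 116, 70564, 0, 0, 0, 0, 0, 0⟩ ⟨0, 0, 0, 0, 0, 0, 76649, 0, 0, 0, 0, 0, 0⟩ ⟨0, 0, 0, 0, 0, 0, 76649, 0, 0, 0, 0, 0, 0⟩ ⟨0, 0, 0, 0, 0, 0, 83882, 0, 0, 0, 0, 0, 0⟩ ⟨0, 0, 0, 0, 0, 0, 83882, 0, 0, 0, 0, 0, 0⟩ ⟨431, -18, 512, 28, 22, 180, 92621, 0, 0, 0, 0, 0, 0⟩))))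
    (.leaf (.box ⟨512, -46, 317, 43, -7, 154, 73555, 0, 0, 0, 0, 0, 0⟩ ⟨0, 0, 0, 0, 0, 0, 80087, 0, 0, 0, 0, 0, 0⟩ ⟨0, 0, 0, 0, 0, 0, 80087, 0, 0, 0, 0, 0, 0⟩ ⟨0, 0, 0, 0, 0, 0, 87891, 0, 0, 0, 0, 0, 0⟩ ⟨0, 0, 0, 0, 0, 0, 87891, 0, 0, 0, 0, 0, 0⟩ ⟨512, -21, -29, 32, 2, 185, 97380, 0, 0, 0, 0, 0, 0⟩)))
    (.s0
    (.s0
    (.s0
    (.s1
    (.leaf (.box ⟨185, -8, 512, 15, 17, 55, 125362, 0, 0, 0, 0, 0, 0⟩ ⟨241, -12, 512, 25, 32, 56, 69679, 0, 0, 0, 0, 0, 0⟩ ⟨241, -12, 512, 25, 32, 56, 69679, 0, 0, 0, 0, 0, 0⟩ ⟨305, -11, 512, 24, 31, 57, 73256, 0, 0, 0, 0, 0, 0⟩ ⟨305, -11, 512, 24, 31, 57, 73256, 0, 0, 0, 0, 0, 0⟩ ⟨344, -4, 512, 9, 11, 56, 203302, 0, 0, 0, 0, 0, 0⟩))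
    (.s2
    (.leaf (.box ⟨161, -1, 512, 18, 26, 52, 139620, 0, 0, 0, 0, 0, 0⟩ ⟨252, -1, 512, 33, 47, 47, 70787, 0, 0, 0, 0, 0, 0⟩ ⟨252, -1, 512, 33, 47, 47, 70787, 0, 0, 0, 0, 0, 0⟩ ⟨327, -1, 512, 33, 46, 42, 65183, 0, 0, 0, 0, 0, 0⟩ ⟨327, -1, 512, 33, 46, 42, 65183, 0, 0, 0, 0, 0, 0⟩ ⟨414, -1, 512, 14, 17, 38, 157852, 0, 0, 0, 0, 0, 0⟩))
    (.leaf (.box ⟨124, -2, 512, 17, 24, 46, 137271, 0, 0, 0, 0, 0, 0⟩ ⟨218, -4, 512, 31, 43, 42, 70379, 0, 0, 0, 0, 0, 0⟩ ⟨218, -4, 512, 31, 43, 42, 70379, 0, 0, 0, 0, 0, 0⟩ ⟨318, -5, 512, 32, 42, 39, 66478, 0, 0, 0, 0, 0, 0⟩ ⟨318, -5, 512, 32, 42, 39, 66478, 0, 0, 0, 0, 0, 0⟩ ⟨377, -2, 512, 12, 15, 35, 165992, 0, 0, 0, 0, 0, 0⟩))))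
    (.leaf (.box ⟨269, -29, 512, 54, 45, 67, 65902, 0, 0, 0, 0, 0, 0⟩ ⟨0, 0, 0, 0, 0, 0, 69314, 0, 0, 0, 0, 0, 0⟩ ⟨0, 0, 0, 0, 0, 0, 69314, 0, 0, 0, 0, 0, 0⟩ ⟨0, 0, 0, 0, 0, 0, 73099, 0, 0, 0, 0, 0, 0⟩ ⟨0, 0, 0, 0, 0, 0, 73099, 0, 0, 0, 0, 0, 0⟩ ⟨512, -17, 467, 41, 34, 60, 77320, 0, 0, 0, 0, 0, 0⟩)))
    (.leaf (.box ⟨405, -53, 512, 65, 44, 95, 69194, 0, 0, 0, 0, 0, 0⟩ ⟨0, 0, 0, 0, 0, 0, 73625, 0, 0, 0, 0, 0, 0⟩ ⟨0, 0, 0, 0, 0, 0, 73625, 0, 0, 0, 0, 0, 0⟩ ⟨0, 0, 0, 0, 0, 0, 78662, 0, 0, 0, 0, 0, 0⟩ ⟨0, 0, 0, 0, 0, 0, 78662, 0, 0, 0, 0, 0, 0⟩ ⟨512, -24, 356, 43, 31, 80, 84439, 0, 0, 0, 0, 0, 0⟩)))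
    (.leaf (.box ⟨512, -94, 256, 73, 19, 117, 72808, 0, 0, 0, 0, 0, 0⟩ ⟨0, 0, 0, 0, 0, 0, 79227, 0, 0, 0, 0, 0, 0⟩ ⟨0, 0, 0, 0, 0, 0, 79227, 0, 0, 0, 0, 0, 0⟩ ⟨0, 0, 0, 0, 0, 0, 86885, 0, 0, 0, 0, 0, 0⟩ ⟨0, 0, 0, 0, 0, 0, 86885, 0, 0, 0, 0, 0, 0⟩ ⟨512, -33, 4, 47, 20, 114, 96183, 0, 0, 0, 0, 0, 0⟩)))

/-- A piece of the tree. -/
noncomputable def tree9 : Tree LeafX :=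
  .s1
    (.leaf (.box ⟨512, -12, -427, 29, 3, 82, 155442, 0, 0, 0, 0, 0, 0⟩ ⟨512, -22, -512, 56, 6, 103, 82040, 0, 0, 0, 0, 0, 0⟩ ⟨512, -22, -512, 56, 6, 103, 82040, 0, 0, 0, 0, 0, 0⟩ ⟨425, -17, -512, 48, 5, 109, 85160, 0, 0, 0, 0, 0, 0⟩ ⟨425, -17, -512, 48, 5, 109, 85160, 0, 0, 0, 0, 0, 0⟩ ⟨401, -5, -512, 16, 2, 114, 238044, 0, 0, 0, 0, 0, 0⟩))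
    (.s1
    (.s2
    (.leaf (.box ⟨474, -41, -512, 47, 17, 113, 86196, 0, 0, 0, 0, 0, 0⟩ ⟨0, 0, 0, 0, 0, 0, 94144, 0, 0, 0, 0, 0, 0⟩ ⟨0, 0, 0, 0, 0, 0, 94144, 0, 0, 0, 0, 0, 0⟩ ⟨0, 0, 0, 0, 0, 0, 103706, 0, 0, 0, 0, 0, 0⟩ ⟨0, 0, 0, 0, 0, 0, 103706, 0, 0, 0, 0, 0, 0⟩ ⟨359, -13, -512, 24, 13, 135, 115430, 0, 0, 0, 0, 0, 0⟩))
    (.leaf (.box ⟨512, -50, -410, 40, -4, 95, 79689, 0, 0, 0, 0, 0, 0⟩ ⟨0, 0, 0, 0, 0, 0, 87805, 0, 0, 0, 0, 0, 0⟩ ⟨0, 0, 0, 0, 0, 0, 87805, 0, 0, 0, 0, 0, 0⟩ ⟨0, 0, 0, 0, 0, 0, 97762, 0, 0, 0, 0, 0, 0⟩ ⟨0, 0, 0, 0, 0, 0, 97762, 0, 0, 0, 0, 0, 0⟩ ⟨364, -10, -512, 16, -2, 108, 110265, 0, 0, 0, 0, 0, 0⟩)))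
    (.s2
    (.leaf (.box ⟨469, -59, -512, 47, 32, 115, 83391, 0, 0, 0, 0, 0, 0⟩ ⟨0, 0, 0, 0, 0, 0, 92374, 0, 0, 0, 0, 0, 0⟩ ⟨0, 0, 0, 0, 0, 0, 92374, 0, 0, 0, 0, 0, 0⟩ ⟨0, 0, 0, 0, 0, 0, 103526, 0, 0, 0, 0, 0, 0⟩ ⟨0, 0, 0, 0, 0, 0, 103526, 0, 0, 0, 0, 0, 0⟩ ⟨310, -21, -512, 32, 24, 134, 117740, 0, 0, 0, 0, 0, 0⟩))
    (.s0
    (.leaf (.box ⟨512, -106, -321, 61, -2, 147, 78548, 0, 0, 0, 0, 0, 0⟩ ⟨0, 0, 0, 0, 0, 0, 88186, 0, 0, 0, 0, 0, 0⟩ ⟨0, 0, 0, 0, 0, 0, 88186, 0, 0, 0, 0, 0, 0⟩ ⟨0, 0, 0, 0, 0, 0, 100519, 0, 0, 0, 0, 0, 0⟩ ⟨0, 0, 0, 0, 0, 0, 100519, 0, 0, 0, 0, 0, 0⟩ ⟨310, -23, -512, 31, 6, 138, 116862, 0, 0, 0, 0, 0, 0⟩))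
    (.leaf (.box ⟨180, -39, -512, 25, 0, 95, 100130, 0, 0, 0, 0, 0, 0⟩ ⟨0, 0, 0, 0, 0, 0, 113717, 0, 0, 0, 0, 0, 0⟩ ⟨0, 0, 0, 0, 0, 0, 113717, 0, 0, 0, 0, 0, 0⟩ ⟨0, 0, 0, 0, 0, 0, 131569, 0, 0, 0, 0, 0, 0⟩ ⟨0, 0, 0, 0, 0, 0, 131569, 0, 0, 0, 0, 0, 0⟩ ⟨129, -10, -512, 15, -1, 96, 156069, 0, 0, 0, 0, 0, 0⟩)))))

/-- A piece of the tree. -/
noncomputable def tree10 : Tree LeafX :=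
  .s1
    (.s0
    (.s2
    (.leaf (.box ⟨512, -16, 497, 33, -5, 79, 49133, 0, 0, 0, 0, 0, 0⟩ ⟨0, 0, 0, 0, 0, 0, 51230, 0, 0, 0, 0, 0, 0⟩ ⟨0, 0, 0, 0, 0, 0, 51230, 0, 0, 0, 0, 0, 0⟩ ⟨0, 0, 0, 0, 0, 0, 53514, 0, 0, 0, 0, 0, 0⟩ ⟨0, 0, 0, 0, 0, 0, 53514, 0, 0, 0, 0, 0, 0⟩ ⟨512, -18, 475, 46, -3, 127, 56010, 0, 0, 0, 0, 0, 0⟩))
    (.leaf (.box ⟨512, -30, 480, 49, 4, 77, 41467, 0, 0, 0, 0, 0, 0⟩ ⟨0, 0, 0, 0, 0, 0, 43599, 0, 0, 0, 0, 0, 0⟩ ⟨0, 0, 0, 0, 0, 0, 43599, 0, 0, 0, 0, 0, 0⟩ ⟨0, 0, 0, 0, 0, 0, 45963, 0, 0, 0, 0, 0, 0⟩ ⟨0, 0, 0, 0, 0, 0, 45963, 0, 0, 0, 0, 0, 0⟩ ⟨512, -25, 430, 54, 9, 102, 48596, 0, 0, 0, 0, 0, 0⟩)))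
    (.s2
    (.leaf (.box ⟨512, -14, 227, 27, -13, 104, 63280, 0, 0, 0, 0, 0, 0⟩ ⟨0, 0, 0, 0, 0, 0, 66370, 0, 0, 0, 0, 0, 0⟩ ⟨0, 0, 0, 0, 0, 0, 66370, 0, 0, 0, 0, 0, 0⟩ ⟨0, 0, 0, 0, 0, 0, 69777, 0, 0, 0, 0, 0, 0⟩ ⟨0, 0, 0, 0, 0, 0, 69777, 0, 0, 0, 0, 0, 0⟩ ⟨512, -7, -1, 19, -10, 126, 73552, 0, 0, 0, 0, 0, 0⟩))
    (.leaf (.box ⟨512, -12, -21, 27, -4, 79, 59265, 0, 0, 0, 0, 0, 0⟩ ⟨0, 0, 0, 0, 0, 0, 62390, 0, 0, 0, 0, 0, 0⟩ ⟨0, 0, 0, 0, 0, 0, 62390, 0, 0, 0, 0, 0, 0⟩ ⟨0, 0, 0, 0, 0, 0, 65861, 0, 0, 0, 0, 0, 0⟩ ⟨0, 0, 0, 0, 0, 0, 65861, 0, 0, 0, 0, 0, 0⟩ ⟨512, -6, -82, 17, -3, 77, 69742, 0, 0, 0, 0, 0, 0⟩))))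
    (.s1
    (.s0
    (.s0
    (.s1
    (.leaf (.box ⟨279, -10, 512, 10, 4, 57, 104495, 0, 0, 0, 0, 0, 0⟩ ⟨291, -18, 512, 21, 10, 68, 61385, 0, 0, 0, 0, 0, 0⟩ ⟨291, -18, 512, 21, 10, 68, 61385, 0, 0, 0, 0, 0, 0⟩ ⟨317, -16, 512, 21, 12, 80, 70606, 0, 0, 0, 0, 0, 0⟩ ⟨317, -16, 512, 21, 12, 80, 70606, 0, 0, 0, 0, 0, 0⟩ ⟨372, -6, 512, 9, 5, 92, 215271, 0, 0, 0, 0, 0, 0⟩))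
    (.s2
    (.leaf (.box ⟨238, -12, 512, 13, 6, 53, 115320, 0, 0, 0, 0, 0, 0⟩ ⟨271, -18, 512, 22, 15, 61, 67004, 0, 0, 0, 0, 0, 0⟩ ⟨271, -18, 512, 22, 15, 61, 67004, 0, 0, 0, 0, 0, 0⟩ ⟨329, -15, 512, 21, 16, 69, 76170, 0, 0, 0, 0, 0, 0⟩ ⟨329, -15, 512, 21, 16, 69, 76170, 0, 0, 0, 0, 0, 0⟩ ⟨382, -5, 512, 8, 6, 76, 228143, 0, 0, 0, 0, 0, 0⟩))
    (.leaf (.box ⟨243, -24, 512, 23, 11, 52, 60715, 0, 0, 0, 0, 0, 0⟩ ⟨0, 0, 0, 0, 0, 0, 66293, 0, 0, 0, 0, 0, 0⟩ ⟨0, 0, 0, 0, 0, 0, 66293, 0, 0, 0, 0, 0, 0⟩ ⟨0, 0, 0, 0, 0, 0, 72999, 0, 0, 0, 0, 0, 0⟩ ⟨0, 0, 0, 0, 0, 0, 72999, 0, 0, 0, 0, 0, 0⟩ ⟨440, -15, 512, 22, 19, 81, 81213, 0, 0, 0, 0, 0, 0⟩))))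
    (.leaf (.box ⟨361, -34, 512, 30, -6, 79, 67500, 0, 0, 0, 0, 0, 0⟩ ⟨0, 0, 0, 0, 0, 0, 73725, 0, 0, 0, 0, 0, 0⟩ ⟨0, 0, 0, 0, 0, 0, 73725, 0, 0, 0, 0, 0, 0⟩ ⟨0, 0, 0, 0, 0, 0, 81213, 0, 0, 0, 0, 0, 0⟩ ⟨0, 0, 0, 0, 0, 0, 81213, 0, 0, 0, 0, 0, 0⟩ ⟨512, -21, 377, 30, 2, 127, 90395, 0, 0, 0, 0, 0, 0⟩)))
    (.s2
    (.s2
    (.leaf (.box ⟨512, -44, 492, 36, -27, 152, 71918, 0, 0, 0, 0, 0, 0⟩ ⟨0, 0, 0, 0, 0, 0, 78472, 0, 0, 0, 0, 0, 0⟩ ⟨0, 0, 0, 0, 0, 0, 78472, 0, 0, 0, 0, 0, 0⟩ ⟨0, 0, 0, 0, 0, 0, 86341, 0, 0, 0, 0, 0, 0⟩ ⟨0, 0, 0, 0, 0, 0, 86341, 0, 0, 0, 0, 0, 0⟩ ⟨512, -18, -34, 25, -9, 163, 95962, 0, 0, 0, 0, 0, 0⟩))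
    (.leaf (.box ⟨512, -25, 333, 20, -25, 109, 70519, 0, 0, 0, 0, 0, 0⟩ ⟨0, 0, 0, 0, 0, 0, 77196, 0, 0, 0, 0, 0, 0⟩ ⟨0, 0, 0, 0, 0, 0, 77196, 0, 0, 0, 0, 0, 0⟩ ⟨0, 0, 0, 0, 0, 0, 85269, 0, 0, 0, 0, 0, 0⟩ ⟨0, 0, 0, 0, 0, 0, 85269, 0, 0, 0, 0, 0, 0⟩ ⟨512, -13, -86, 18, -11, 131, 95228, 0, 0, 0, 0, 0, 0⟩)))
    (.leaf (.box ⟨512, -36, 41, 33, -17, 66, 68631, 0, 0, 0, 0, 547215453, 0⟩ ⟨0, 0, 0, 0, 0, 0, 75155, 0, 0, 0, 0, 0, 0⟩ ⟨0, 0, 0, 0, 0, 0, 75155, 0, 0, 0, 0, 0, 0⟩ ⟨0, 0, 0, 0, 0, 0, 83049, 0, 0, 0, 0, 0, 0⟩ ⟨0, 0, 0, 0, 0, 0, 83049, 0, 0, 0, 0, 0, 0⟩ ⟨512, -8, -172, 12, -9, 72, 92795, 0, 0, 0, 0, 945768762, 0⟩))))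
    (.s0
    (.s0
    (.s1
    (.leaf (.box ⟨280, -16, 512, 19, 10, 46, 120494, 0, 0, 0, 0, 0, 0⟩ ⟨354, -25, 512, 34, 21, 52, 69664, 0, 0, 0, 0, 0, 0⟩ ⟨354, -25, 512, 34, 21, 52, 69664, 0, 0, 0, 0, 0, 0⟩ ⟨428, -22, 512, 33, 22, 57, 75158, 0, 0, 0, 0, 0, 0⟩ ⟨428, -22, 512, 33, 22, 57, 75158, 0, 0, 0, 0, 0, 0⟩ ⟨512, -7, 505, 12, 8, 60, 214236, 0, 0, 0, 0, 0, 0⟩))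
    (.leaf (.box ⟨445, -13, 512, 27, 15, 41, 133132, 0, 0, 0, 0, 0, 0⟩ ⟨512, -21, 477, 48, 28, 39, 69097, 0, 0, 0, 0, 0, 0⟩ ⟨512, -21, 477, 48, 28, 39, 69097, 0, 0, 0, 0, 0, 0⟩ ⟨512, -17, 408, 42, 25, 34, 67593, 0, 0, 0, 0, 0, 0⟩ ⟨512, -17, 408, 42, 25, 34, 67593, 0, 0, 0, 0, 0, 0⟩ ⟨512, -5, 364, 14, 9, 30, 173290, 0, 0, 0, 0, 0, 0⟩)))
    (.leaf (.box ⟨494, -73, 512, 70, 4, 60, 67109, 0, 0, 0, 0, 0, 0⟩ ⟨0, 0, 0, 0, 0, 0, 72461, 0, 0, 0, 0, 0, 0⟩ ⟨0, 0, 0, 0, 0, 0, 72461, 0, 0, 0, 0, 0, 0⟩ ⟨0, 0, 0, 0, 0, 0, 78741, 0, 0, 0, 0, 0, 0⟩ ⟨0, 0, 0, 0, 0, 0, 78741, 0, 0, 0, 0, 0, 0⟩ ⟨512, -34, 302, 52, 10, 72, 86211, 0, 0, 0, 0, 0, 0⟩)))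
    (.s2
    (.leaf (.box ⟨512, -98, 306, 69, -14, 87, 69144, 0, 0, 0, 0, 0, 0⟩ ⟨0, 0, 0, 0, 0, 0, 76041, 0, 0, 0, 0, 0, 0⟩ ⟨0, 0, 0, 0, 0, 0, 76041, 0, 0, 0, 0, 0, 0⟩ ⟨0, 0, 0, 0, 0, 0, 84465, 0, 0, 0, 0, 0, 0⟩ ⟨0, 0, 0, 0, 0, 0, 84465, 0, 0, 0, 0, 0, 0⟩ ⟨512, -33, -62, 46, -1, 98, 94987, 0, 0, 0, 0, 0, 0⟩))
    (.s2
    (.leaf (.box ⟨512, -52, 183, 38, -25, 59, 65991, 0, 0, 314387708, 0, 0, 0⟩ ⟨0, 0, 0, 0, 0, 0, 72556, 0, 0, 0, 0, 0, 0⟩ ⟨0, 0, 0, 0, 0, 0, 72556, 0, 0, 0, 0, 0, 0⟩ ⟨0, 0, 0, 0, 0, 0, 80571, 0, 0, 0, 0, 0, 0⟩ ⟨0, 0, 0, 0, 0, 0, 80571, 0, 0, 0, 0, 0, 0⟩ ⟨512, -24, -206, 34, -15, 87, 90577, 0, 0, 0, 0, 0, 0⟩))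
    (.leaf (.box ⟨512, -36, 80, 30, -25, 39, 62362, 0, 0, 2112930, 0, 1286412254, 0⟩ ⟨0, 0, 0, 0, 0, 0, 68364, 0, 0, 0, 0, 0, 0⟩ ⟨0, 0, 0, 0, 0, 0, 68364, 0, 0, 0, 0, 0, 0⟩ ⟨0, 0, 0, 0, 0, 0, 75644, 0, 0, 0, 0, 0, 0⟩ ⟨0, 0, 0, 0, 0, 0, 75644, 0, 0, 0, 0, 0, 0⟩ ⟨512, -23, -321, 32, -21, 68, 84659, 0, 0, 0, 0, 3530630733, 0⟩))))))

/-- A piece of the tree. -/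
noncomputable def tree11 : Tree LeafX :=
  .s1
    (.s2
    (.leaf (.box ⟨512, -12, -434, 27, -5, 75, 71229, 0, 0, 0, 0, 0, 0⟩ ⟨0, 0, 0, 0, 0, 0, 75087, 0, 0, 0, 0, 0, 0⟩ ⟨0, 0, 0, 0, 0, 0, 75087, 0, 0, 0, 0, 0, 0⟩ ⟨0, 0, 0, 0, 0, 0, 79386, 0, 0, 0, 0, 0, 0⟩ ⟨0, 0, 0, 0, 0, 0, 79386, 0, 0, 0, 0, 0, 0⟩ ⟨376, -5, -512, 16, -4, 87, 84206, 0, 0, 0, 0, 0, 0⟩))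
    (.s0
    (.leaf (.box ⟨418, -5, -512, 20, -5, 79, 69348, 0, 0, 0, 0, 3393998790, 0⟩ ⟨0, 0, 0, 0, 0, 0, 72370, 0, 0, 0, 0, 0, 0⟩ ⟨0, 0, 0, 0, 0, 0, 72370, 0, 0, 0, 0, 0, 0⟩ ⟨0, 0, 0, 0, 0, 0, 75666, 0, 0, 0, 0, 0, 0⟩ ⟨0, 0, 0, 0, 0, 0, 75666, 0, 0, 0, 0, 0, 0⟩ ⟨298, -3, -512, 14, -4, 76, 79277, 0, 0, 0, 0, 0, 0⟩))
    (.leaf (.box ⟨100, -2, -512, 10, -3, 72, 104127, 0, 0, 0, 0, 1456119160, 0⟩ ⟨0, 0, 0, 0, 0, 0, 110010, 0, 0, 0, 0, 0, 0⟩ ⟨0, 0, 0, 0, 0, 0, 110010, 0, 0, 0, 0, 0, 0⟩ ⟨0, 0, 0, 0, 0, 0, 116596, 0, 0, 0, 0, 0, 0⟩ ⟨0, 0, 0, 0, 0, 0, 116596, 0, 0, 0, 0, 0, 0⟩ ⟨97, -1, -512, 7, -3, 72, 124021, 0, 0, 0, 0, 0, 0⟩))))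
    (.s2
    (.s3
    (.s1
    (.s0
    (.leaf (.box ⟨512, -40, -388, 35, -22, 111, 78202, 0, 0, 0, 0, 0, 0⟩ ⟨0, 0, 0, 0, 0, 0, 87774, 0, 0, 0, 0, 0, 0⟩ ⟨0, 0, 0, 0, 0, 0, 87774, 0, 0, 0, 0, 0, 0⟩ ⟨0, 0, 0, 0, 0, 0, 100014, 0, 0, 0, 0, 0, 0⟩ ⟨0, 0, 0, 0, 0, 0, 100014, 0, 0, 0, 0, 0, 0⟩ ⟨308, -6, -512, 11, -10, 103, 116222, 0, 0, 0, 0, 0, 0⟩))
    (.leaf (.box ⟨163, -12, -512, 14, -9, 80, 103144, 0, 0, 0, 0, 0, 0⟩ ⟨0, 0, 0, 0, 0, 0, 116677, 0, 0, 0, 0, 0, 0⟩ ⟨0, 0, 0, 0, 0, 0, 116677, 0, 0, 0, 0, 0, 0⟩ ⟨0, 0, 0, 0, 0, 0, 134296, 0, 0, 0, 0, 0, 0⟩ ⟨0, 0, 0, 0, 0, 0, 134296, 0, 0, 0, 0, 0, 0⟩ ⟨87, -3, -512, 8, -6, 82, 158183, 0, 0, 0, 0, 0, 0⟩)))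
    (.leaf (.box ⟨512, -39, -431, 35, -10, 75, 131739, 0, 0, 0, 0, 366172883, 0⟩ ⟨472, -42, -512, 51, -19, 89, 84082, 0, 0, 0, 0, 0, 0⟩ ⟨472, -42, -512, 51, -19, 89, 84082, 0, 0, 0, 0, 0, 0⟩ ⟨382, -22, -512, 34, -14, 87, 110569, 0, 0, 0, 0, 0, 0⟩ ⟨382, -22, -512, 34, -14, 87, 110569, 0, 0, 0, 0, 0, 0⟩ ⟨316, -4, -512, 8, -3, 86, 431617, 0, 0, 0, 0, 0, 0⟩)))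
    (.s1
    (.s0
    (.leaf (.box ⟨512, -45, -379, 38, -18, 108, 77047, 0, 0, 0, 0, 0, 0⟩ ⟨0, 0, 0, 0, 0, 0, 84073, 0, 0, 0, 0, 0, 0⟩ ⟨0, 0, 0, 0, 0, 0, 84073, 0, 0, 0, 0, 0, 0⟩ ⟨0, 0, 0, 0, 0, 0, 92507, 0, 0, 0, 0, 0, 0⟩ ⟨0, 0, 0, 0, 0, 0, 92507, 0, 0, 0, 0, 0, 0⟩ ⟨321, -8, -512, 13, -9, 108, 102823, 0, 0, 0, 0, 0, 0⟩))
    (.leaf (.box ⟨157, -10, -512, 12, -5, 78, 101046, 0, 0, 0, 0, 0, 0⟩ ⟨0, 0, 0, 0, 0, 0, 111323, 0, 0, 0, 0, 0, 0⟩ ⟨0, 0, 0, 0, 0, 0, 111323, 0, 0, 0, 0, 0, 0⟩ ⟨0, 0, 0, 0, 0, 0, 123926, 0, 0, 0, 0, 0, 0⟩ ⟨0, 0, 0, 0, 0, 0, 123926, 0, 0, 0, 0, 0, 0⟩ ⟨92, -3, -512, 7, -5, 83, 139746, 0, 0, 0, 0, 0, 0⟩)))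
    (.s0
    (.leaf (.box ⟨512, -55, -379, 37, -25, 102, 75058, 0, 0, 0, 0, 0, 0⟩ ⟨0, 0, 0, 0, 0, 0, 83262, 0, 0, 0, 0, 0, 0⟩ ⟨0, 0, 0, 0, 0, 0, 83262, 0, 0, 0, 0, 0, 0⟩ ⟨0, 0, 0, 0, 0, 0, 93478, 0, 0, 0, 0, 0, 0⟩ ⟨0, 0, 0, 0, 0, 0, 93478, 0, 0, 0, 0, 0, 0⟩ ⟨310, -15, -512, 23, -12, 101, 106551, 0, 0, 0, 0, 0, 0⟩))
    (.leaf (.box ⟨179, -24, -512, 22, -9, 76, 104735, 0, 0, 0, 0, 0, 0⟩ ⟨0, 0, 0, 0, 0, 0, 118006, 0, 0, 0, 0, 0, 0⟩ ⟨0, 0, 0, 0, 0, 0, 118006, 0, 0, 0, 0, 0, 0⟩ ⟨0, 0, 0, 0, 0, 0, 135126, 0, 0, 0, 0, 0, 0⟩ ⟨0, 0, 0, 0, 0, 0, 135126, 0, 0, 0, 0, 0, 0⟩ ⟨94, -6, -512, 12, -8, 83, 158057, 0, 0, 0, 0, 0, 0⟩)))))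
    (.s0
    (.leaf (.box ⟨512, -52, -502, 75, -29, 76, 70672, 0, 0, 0, 0, 2106863639, 0⟩ ⟨0, 0, 0, 0, 0, 0, 77602, 0, 0, 0, 0, 0, 0⟩ ⟨0, 0, 0, 0, 0, 0, 77602, 0, 0, 0, 0, 0, 0⟩ ⟨0, 0, 0, 0, 0, 0, 86039, 0, 0, 0, 0, 0, 0⟩ ⟨0, 0, 0, 0, 0, 0, 86039, 0, 0, 0, 0, 0, 0⟩ ⟨321, -18, -512, 41, -18, 69, 96533, 0, 0, 0, 0, 3349577920, 0⟩))
    (.leaf (.box ⟨84, -15, -512, 36, -14, 69, 112363, 0, 0, 0, 0, 2089996829, 0⟩ ⟨0, 0, 0, 0, 0, 0, 122884, 0, 0, 0, 0, 0, 0⟩ ⟨0, 0, 0, 0, 0, 0, 122884, 0, 0, 0, 0, 0, 0⟩ ⟨0, 0, 0, 0, 0, 0, 135579, 0, 0, 0, 0, 0, 0⟩ ⟨0, 0, 0, 0, 0, 0, 135579, 0, 0, 0, 0, 0, 0⟩ ⟨160, -7, -512, 25, -12, 72, 151198, 0, 0, 0, 0, 2554008945, 0⟩))))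

/-- A piece of the tree. -/
noncomputable def tree12 : Tree LeafX :=
  .s1
    (.leaf (.skip 0 8))
    (.s2
    (.s1
    (.s0
    (.leaf (.box ⟨164, 2, -591, 6, 6, 124, 525622, 0, 0, 0, 0, 0, 0⟩ ⟨145, 6, -512, 13, 14, 113, 227447, 0, 0, 0, 0, 0, 0⟩ ⟨145, 6, -512, 13, 14, 113, 227447, 0, 0, 0, 0, 0, 0⟩ ⟨154, 10, -512, 17, 20, 123, 193235, 0, 0, 0, 0, 0, 0⟩ ⟨154, 10, -512, 17, 20, 123, 193235, 0, 0, 0, 0, 0, 0⟩ ⟨189, 10, -512, 10, 13, 146, 415947, 0, 0, 0, 0, 0, 8163006831⟩))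
    (.leaf (.box ⟨146, 6, -512, 15, 13, 131, 281105, 0, 0, 0, 0, 0, 0⟩ ⟨0, 0, 0, 0, 0, 0, 269874, 0, 0, 0, 0, 0, 0⟩ ⟨0, 0, 0, 0, 0, 0, 269874, 0, 0, 0, 0, 0, 0⟩ ⟨0, 0, 0, 0, 0, 0, 259505, 0, 0, 0, 0, 0, 0⟩ ⟨0, 0, 0, 0, 0, 0, 259505, 0, 0, 0, 0, 0, 0⟩ ⟨280, 36, -512, 32, 33, 186, 249903, 0, 0, 0, 0, 0, 17666533547⟩)))
    (.s2
    (.leaf (.box ⟨206, 3, -512, 7, 4, 118, 483495, 0, 0, 0, 0, 0, 0⟩ ⟨191, 7, -512, 16, 11, 121, 210559, 0, 0, 0, 0, 0, 0⟩ ⟨191, 7, -512, 16, 11, 121, 210559, 0, 0, 0, 0, 0, 0⟩ ⟨189, 12, -512, 19, 15, 128, 181478, 0, 0, 0, 0, 0, 0⟩ ⟨189, 12, -512, 19, 15, 128, 181478, 0, 0, 0, 0, 0, 0⟩ ⟨181, 10, -512, 10, 9, 141, 404544, 0, 0, 0, 0, 0, 0⟩))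
    (.leaf (.box ⟨207, 5, -512, 15, 12, 115, 190113, 0, 0, 0, 0, 0, 0⟩ ⟨0, 0, 0, 0, 0, 0, 189232, 0, 0, 0, 0, 0, 0⟩ ⟨0, 0, 0, 0, 0, 0, 189232, 0, 0, 0, 0, 0, 0⟩ ⟨0, 0, 0, 0, 0, 0, 188359, 0, 0, 0, 0, 0, 0⟩ ⟨0, 0, 0, 0, 0, 0, 188359, 0, 0, 0, 0, 0, 0⟩ ⟨209, 18, -512, 22, 20, 140, 187494, 0, 0, 0, 0, 0, 0⟩))))
    (.s0
    (.s1
    (.s2
    (.leaf (.box ⟨132, 4, -512, 12, 15, 104, 205436, 0, 0, 0, 0, 0, 0⟩ ⟨0, 0, 0, 0, 0, 0, 203841, 0, 0, 0, 0, 0, 0⟩ ⟨0, 0, 0, 0, 0, 0, 203841, 0, 0, 0, 0, 0, 0⟩ ⟨0, 0, 0, 0, 0, 0, 202270, 0, 0, 0, 0, 0, 0⟩ ⟨0, 0, 0, 0, 0, 0, 202270, 0, 0, 0, 0, 0, 0⟩ ⟨229, 17, -512, 23, 28, 146, 200722, 0, 0, 0, 0, 0, 5965271668⟩))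
    (.leaf (.box ⟨148, 2, -606, 6, 8, 120, 483887, 0, 0, 0, 0, 0, 0⟩ ⟨131, 4, -512, 12, 16, 108, 219632, 0, 0, 0, 0, 0, 0⟩ ⟨131, 4, -512, 12, 16, 108, 219632, 0, 0, 0, 0, 0, 0⟩ ⟨167, 7, -512, 16, 21, 120, 196746, 0, 0, 0, 0, 0, 0⟩ ⟨167, 7, -512, 16, 21, 120, 196746, 0, 0, 0, 0, 0, 0⟩ ⟨262, 6, -512, 10, 12, 146, 457602, 0, 0, 0, 0, 0, 0⟩)))
    (.leaf (.box ⟨128, 3, -512, 12, 10, 100, 186068, 0, 0, 0, 0, 0, 0⟩ ⟨0, 0, 0, 0, 0, 0, 187358, 0, 0, 0, 0, 0, 0⟩ ⟨0, 0, 0, 0, 0, 0, 187358, 0, 0, 0, 0, 0, 0⟩ ⟨0, 0, 0, 0, 0, 0, 188666, 0, 0, 0, 0, 0, 0⟩ ⟨0, 0, 0, 0, 0, 0, 188666, 0, 0, 0, 0, 0, 0⟩ ⟨174, 8, -512, 16, 15, 122, 189992, 0, 0, 0, 0, 0, 0⟩)))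
    (.s1
    (.s0
    (.leaf (.box ⟨133, 2, -668, 6, 9, 154, 650332, 0, 0, 0, 0, 0, 0⟩ ⟨117, 4, -512, 11, 17, 127, 287522, 0, 0, 0, 0, 0, 0⟩ ⟨117, 4, -512, 11, 17, 127, 287522, 0, 0, 0, 0, 0, 0⟩ ⟨176, 8, -512, 15, 25, 142, 245270, 0, 0, 0, 0, 0, 0⟩ ⟨176, 8, -512, 15, 25, 142, 245270, 0, 0, 0, 0, 0, 0⟩ ⟨329, 9, -512, 12, 17, 181, 511672, 0, 0, 0, 0, 0, 20973093253⟩))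
    (.leaf (.skip 0 8)))
    (.s0
    (.leaf (.box ⟨140, 2, -787, 6, 7, 176, 589363, 0, 0, 0, 0, 0, 0⟩ ⟨100, 3, -512, 8, 11, 120, 266191, 0, 0, 0, 0, 0, 0⟩ ⟨100, 3, -512, 8, 11, 120, 266191, 0, 0, 0, 0, 0, 0⟩ ⟨130, 5, -512, 12, 14, 128, 230519, 0, 0, 0, 0, 0, 0⟩ ⟨130, 5, -512, 12, 14, 128, 230519, 0, 0, 0, 0, 0, 0⟩ ⟨194, 4, -512, 7, 8, 143, 504780, 0, 0, 0, 0, 0, 0⟩))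
    (.s2
    (.leaf (.box ⟨159, 2, -910, 6, 8, 226, 714337, 0, 0, 0, 0, 0, 0⟩ ⟨102, 3, -512, 9, 11, 132, 309788, 0, 0, 0, 0, 0, 0⟩ ⟨102, 3, -512, 9, 11, 132, 309788, 0, 0, 0, 0, 0, 0⟩ ⟨125, 6, -512, 12, 15, 141, 260250, 0, 0, 0, 0, 0, 0⟩ ⟨125, 6, -512, 12, 15, 141, 260250, 0, 0, 0, 0, 0, 0⟩ ⟨197, 6, -512, 8, 9, 159, 552332, 0, 0, 0, 0, 0, 1230748890⟩))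
    (.s1
    (.leaf (.box ⟨180, 2, -1044, 6, 11, 261, 716619, 0, 0, 0, 0, 0, 0⟩ ⟨108, 3, -512, 8, 13, 136, 316222, 0, 0, 0, 0, 0, 0⟩ ⟨108, 3, -512, 8, 13, 136, 316222, 0, 0, 0, 0, 0, 0⟩ ⟨139, 4, -512, 9, 19, 150, 271947, 0, 0, 0, 0, 0, 0⟩ ⟨139, 4, -512, 9, 19, 150, 271947, 0, 0, 0, 0, 0, 0⟩ ⟨228, 4, -524, 6, 12, 185, 593815, 0, 0, 0, 0, 0, 15609918401⟩))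
    (.leaf (.box ⟨87, 2, -512, 7, 10, 126, 279966, 0, 0, 0, 0, 0, 0⟩ ⟨0, 0, 0, 0, 0, 0, 278140, 0, 0, 0, 0, 0, 0⟩ ⟨0, 0, 0, 0, 0, 0, 278140, 0, 0, 0, 0, 0, 0⟩ ⟨0, 0, 0, 0, 0, 0, 276336, 0, 0, 0, 0, 0, 0⟩ ⟨0, 0, 0, 0, 0, 0, 276336, 0, 0, 0, 0, 0, 0⟩ ⟨169, 6, -512, 11, 16, 161, 274556, 0, 0, 0, 0, 0, 0⟩))))))))

/-- A piece of the tree. -/
noncomputable def tree13 : Tree LeafX :=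
  .s1
    (.leaf (.skip 0 8))
    (.s2
    (.s1
    (.leaf (.skip 0 8))
    (.s0
    (.leaf (.box ⟨132, 6, -512, 16, 8, 151, 342994, 0, 0, 0, 0, 0, 0⟩ ⟨0, 0, 0, 0, 0, 0, 326608, 0, 0, 0, 0, 0, 0⟩ ⟨0, 0, 0, 0, 0, 0, 326608, 0, 0, 0, 0, 0, 0⟩ ⟨0, 0, 0, 0, 0, 0, 311715, 0, 0, 0, 0, 0, 0⟩ ⟨0, 0, 0, 0, 0, 0, 311715, 0, 0, 0, 0, 0, 0⟩ ⟨243, 29, -512, 26, 17, 184, 298121, 0, 0, 0, 0, 0, 12809170657⟩))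
    (.leaf (.skip 0 8))))
    (.s1
    (.leaf (.skip 0 8))
    (.s0
    (.s1
    (.leaf (.skip 0 8))
    (.s0
    (.s2
    (.leaf (.box ⟨170, 2, -1042, 6, 8, 283, 833805, 0, 0, 0, 0, 0, 0⟩ ⟨94, 3, -512, 7, 10, 144, 356941, 0, 0, 0, 0, 0, 0⟩ ⟨94, 3, -512, 7, 10, 144, 356941, 0, 0, 0, 0, 0, 0⟩ ⟨115, 5, -512, 10, 13, 153, 294376, 0, 0, 0, 0, 0, 0⟩ ⟨115, 5, -512, 10, 13, 153, 294376, 0, 0, 0, 0, 0, 0⟩ ⟨172, 5, -512, 7, 8, 172, 606391, 0, 0, 0, 0, 0, 523824533⟩))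
    (.leaf (.box ⟨182, 2, -1033, 6, 9, 283, 791131, 0, 0, 0, 0, 0, 0⟩ ⟨107, 2, -512, 7, 11, 148, 348672, 0, 0, 0, 0, 0, 0⟩ ⟨107, 2, -512, 7, 11, 148, 348672, 0, 0, 0, 0, 0, 0⟩ ⟨140, 4, -512, 9, 15, 161, 298906, 0, 0, 0, 0, 0, 0⟩ ⟨140, 4, -512, 9, 15, 161, 298906, 0, 0, 0, 0, 0, 0⟩ ⟨253, 4, -594, 6, 11, 219, 650935, 0, 0, 0, 0, 0, 18576757344⟩)))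
    (.leaf (.box ⟨101, 3, -512, 9, 11, 156, 373752, 0, 0, 0, 0, 0, 0⟩ ⟨0, 0, 0, 0, 0, 0, 363665, 0, 0, 0, 0, 0, 0⟩ ⟨0, 0, 0, 0, 0, 0, 363665, 0, 0, 0, 0, 0, 0⟩ ⟨0, 0, 0, 0, 0, 0, 354107, 0, 0, 0, 0, 0, 0⟩ ⟨0, 0, 0, 0, 0, 0, 354107, 0, 0, 0, 0, 0, 0⟩ ⟨316, 12, -512, 17, 23, 218, 345039, 0, 0, 0, 0, 0, 46307219742⟩))))
    (.leaf (.skip 0 8)))))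

/-- A piece of the tree. -/
noncomputable def tree14 : Tree LeafX :=
  .s1
    (.s0
    (.leaf (.box ⟨150, 1, -611, 6, 4, 116, 366483, 0, 0, 0, 0, 0, 0⟩ ⟨126, 3, -512, 11, 7, 99, 172221, 0, 0, 0, 0, 0, 0⟩ ⟨126, 3, -512, 11, 7, 99, 172221, 0, 0, 0, 0, 0, 0⟩ ⟨131, 4, -512, 14, 8, 102, 160787, 0, 0, 0, 0, 0, 0⟩ ⟨131, 4, -512, 14, 8, 102, 160787, 0, 0, 0, 0, 0, 0⟩ ⟨138, 3, -512, 7, 4, 107, 385915, 0, 0, 0, 0, 0, 0⟩))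
    (.s3
    (.s2
    (.leaf (.box ⟨116, 3, -512, 9, 5, 125, 208940, 0, 0, 0, 0, 0, 0⟩ ⟨0, 0, 0, 0, 0, 0, 214892, 0, 0, 0, 0, 0, 0⟩ ⟨0, 0, 0, 0, 0, 0, 214892, 0, 0, 0, 0, 0, 0⟩ ⟨0, 0, 0, 0, 0, 0, 221192, 0, 0, 0, 0, 0, 0⟩ ⟨0, 0, 0, 0, 0, 0, 221192, 0, 0, 0, 0, 0, 0⟩ ⟨133, 8, -512, 11, 5, 129, 227872, 0, 0, 0, 0, 0, 0⟩))
    (.s2
    (.leaf (.box ⟨103, 2, -512, 8, 4, 121, 209564, 0, 0, 0, 0, 0, 0⟩ ⟨0, 0, 0, 0, 0, 0, 218497, 0, 0, 0, 0, 0, 0⟩ ⟨0, 0, 0, 0, 0, 0, 218497, 0, 0, 0, 0, 0, 0⟩ ⟨0, 0, 0, 0, 0, 0, 228225, 0, 0, 0, 0, 0, 0⟩ ⟨0, 0, 0, 0, 0, 0, 228225, 0, 0, 0, 0, 0, 0⟩ ⟨152, 5, -512, 10, 4, 124, 238859, 0, 0, 0, 0, 0, 0⟩))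
    (.leaf (.box ⟨150, 1, -772, 6, 2, 181, 496762, 0, 0, 0, 0, 0, 0⟩ ⟨109, 2, -512, 8, 3, 121, 236486, 0, 0, 0, 0, 0, 0⟩ ⟨109, 2, -512, 8, 3, 121, 236486, 0, 0, 0, 0, 0, 0⟩ ⟨133, 3, -512, 10, 3, 123, 236503, 0, 0, 0, 0, 0, 0⟩ ⟨133, 3, -512, 10, 3, 123, 236503, 0, 0, 0, 0, 0, 0⟩ ⟨302, 2, -863, 6, 2, 210, 710719, 0, 0, 0, 0, 0, 0⟩))))
    (.leaf (.box ⟨109, 3, -512, 11, 8, 113, 213713, 0, 0, 0, 0, 0, 0⟩ ⟨0, 0, 0, 0, 0, 0, 211885, 0, 0, 0, 0, 0, 0⟩ ⟨0, 0, 0, 0, 0, 0, 211885, 0, 0, 0, 0, 0, 0⟩ ⟨0, 0, 0, 0, 0, 0, 210087, 0, 0, 0, 0, 0, 0⟩ ⟨0, 0, 0, 0, 0, 0, 210087, 0, 0, 0, 0, 0, 0⟩ ⟨153, 7, -512, 14, 9, 120, 208319, 0, 0, 0, 0, 0, 0⟩))))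
    (.s0
    (.leaf (.box ⟨108, 1, -512, 13, 5, 92, 141867, 0, 0, 0, 0, 0, 0⟩ ⟨0, 0, 0, 0, 0, 0, 146969, 0, 0, 0, 0, 0, 0⟩ ⟨0, 0, 0, 0, 0, 0, 146969, 0, 0, 0, 0, 0, 0⟩ ⟨0, 0, 0, 0, 0, 0, 152451, 0, 0, 0, 0, 0, 0⟩ ⟨0, 0, 0, 0, 0, 0, 152451, 0, 0, 0, 0, 0, 0⟩ ⟨110, 2, -512, 14, 5, 96, 158358, 0, 0, 0, 0, 0, 0⟩))
    (.s2
    (.leaf (.box ⟨112, 2, -512, 12, 5, 111, 180406, 0, 0, 0, 0, 0, 0⟩ ⟨0, 0, 0, 0, 0, 0, 183081, 0, 0, 0, 0, 0, 0⟩ ⟨0, 0, 0, 0, 0, 0, 183081, 0, 0, 0, 0, 0, 0⟩ ⟨0, 0, 0, 0, 0, 0, 185836, 0, 0, 0, 0, 0, 0⟩ ⟨0, 0, 0, 0, 0, 0, 185836, 0, 0, 0, 0, 0, 0⟩ ⟨101, 5, -512, 13, 5, 108, 188674, 0, 0, 0, 0, 0, 0⟩))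
    (.leaf (.box ⟨102, 1, -512, 11, -1, 109, 188278, 0, 0, 0, 0, 0, 0⟩ ⟨0, 0, 0, 0, 0, 0, 194620, 0, 0, 0, 0, 0, 0⟩ ⟨0, 0, 0, 0, 0, 0, 194620, 0, 0, 0, 0, 0, 0⟩ ⟨0, 0, 0, 0, 0, 0, 201404, 0, 0, 0, 0, 0, 0⟩ ⟨0, 0, 0, 0, 0, 0, 201404, 0, 0, 0, 0, 0, 0⟩ ⟨91, 1, -512, 10, -1, 101, 208678, 0, 0, 0, 0, 0, 0⟩))))

/-- A piece of the tree. -/
noncomputable def tree15 : Tree LeafX :=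
  .s3
    (.s1
    (.s0
    (.leaf (.box ⟨112, 4, -512, 11, 1, 150, 277515, 0, 0, 0, 0, 0, 0⟩ ⟨0, 0, 0, 0, 0, 0, 280663, 0, 0, 0, 0, 0, 0⟩ ⟨0, 0, 0, 0, 0, 0, 280663, 0, 0, 0, 0, 0, 0⟩ ⟨0, 0, 0, 0, 0, 0, 283883, 0, 0, 0, 0, 0, 0⟩ ⟨0, 0, 0, 0, 0, 0, 283883, 0, 0, 0, 0, 0, 0⟩ ⟨166, 12, -512, 14, 1, 149, 287177, 0, 0, 0, 0, 0, 0⟩))
    (.leaf (.box ⟨109, 5, -512, 13, -2, 181, 372623, 0, 0, 0, 0, 0, 0⟩ ⟨0, 0, 0, 0, 0, 0, 371165, 0, 0, 0, 0, 0, 0⟩ ⟨0, 0, 0, 0, 0, 0, 371165, 0, 0, 0, 0, 0, 0⟩ ⟨0, 0, 0, 0, 0, 0, 369718, 0, 0, 0, 0, 0, 0⟩ ⟨0, 0, 0, 0, 0, 0, 369718, 0, 0, 0, 0, 0, 0⟩ ⟨229, 20, -512, 20, -3, 177, 368281, 0, 0, 0, 0, 0, 2471269972⟩)))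
    (.leaf (.box ⟨174, 3, -512, 9, -2, 154, 571065, 0, 0, 0, 0, 0, 0⟩ ⟨169, 6, -512, 18, -5, 149, 267150, 0, 0, 0, 0, 0, 0⟩ ⟨169, 6, -512, 18, -5, 149, 267150, 0, 0, 0, 0, 0, 0⟩ ⟨159, 9, -512, 20, -6, 141, 247406, 0, 0, 0, 0, 0, 0⟩ ⟨159, 9, -512, 20, -6, 141, 247406, 0, 0, 0, 0, 0, 0⟩ ⟨136, 5, -512, 8, -3, 130, 644428, 0, 0, 0, 0, 0, 0⟩)))
    (.leaf (.box ⟨181, 3, -512, 9, 1, 148, 602013, 0, 0, 0, 0, 0, 0⟩ ⟨186, 8, -512, 21, 3, 146, 262584, 0, 0, 0, 0, 0, 0⟩ ⟨186, 8, -512, 21, 3, 146, 262584, 0, 0, 0, 0, 0, 0⟩ ⟨196, 13, -512, 26, 3, 144, 228172, 0, 0, 0, 0, 0, 0⟩ ⟨196, 13, -512, 26, 3, 144, 228172, 0, 0, 0, 0, 0, 0⟩ ⟨236, 10, -512, 14, 1, 139, 513400, 0, 0, 0, 0, 0, 0⟩))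

/-- A piece of the tree. -/
noncomputable def tree16 : Tree LeafX :=
  .s3
    (.s0
    (.s1
    (.s2
    (.leaf (.box ⟨72, 2, -512, 8, 3, 140, 277217, 0, 0, 0, 0, 0, 0⟩ ⟨0, 0, 0, 0, 0, 0, 285623, 0, 0, 0, 0, 0, 0⟩ ⟨0, 0, 0, 0, 0, 0, 285623, 0, 0, 0, 0, 0, 0⟩ ⟨0, 0, 0, 0, 0, 0, 294555, 0, 0, 0, 0, 0, 0⟩ ⟨0, 0, 0, 0, 0, 0, 294555, 0, 0, 0, 0, 0, 0⟩ ⟨161, 6, -512, 11, 3, 143, 304062, 0, 0, 0, 0, 0, 0⟩))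
    (.leaf (.box ⟨125, 1, -834, 6, 2, 229, 672123, 0, 0, 0, 0, 0, 0⟩ ⟨102, 2, -512, 10, 2, 142, 314502, 0, 0, 0, 0, 0, 0⟩ ⟨102, 2, -512, 10, 2, 142, 314502, 0, 0, 0, 0, 0, 0⟩ ⟨135, 3, -512, 10, 3, 144, 305214, 0, 0, 0, 0, 0, 0⟩ ⟨135, 3, -512, 10, 3, 144, 305214, 0, 0, 0, 0, 0, 0⟩ ⟨256, 2, -658, 6, 1, 190, 859866, 0, 0, 0, 0, 0, 0⟩)))
    (.leaf (.box ⟨64, 1, -512, 9, -5, 130, 248649, 0, 0, 0, 0, 0, 0⟩ ⟨0, 0, 0, 0, 0, 0, 261569, 0, 0, 0, 0, 0, 0⟩ ⟨0, 0, 0, 0, 0, 0, 261569, 0, 0, 0, 0, 0, 0⟩ ⟨0, 0, 0, 0, 0, 0, 275904, 0, 0, 0, 0, 0, 0⟩ ⟨0, 0, 0, 0, 0, 0, 275904, 0, 0, 0, 0, 0, 0⟩ ⟨88, 1, -512, 7, -4, 113, 291902, 0, 0, 0, 0, 0, 0⟩)))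
    (.s1
    (.s1
    (.s2
    (.leaf (.box ⟨64, 2, -512, 7, 4, 158, 344958, 0, 0, 0, 0, 0, 0⟩ ⟨0, 0, 0, 0, 0, 0, 349714, 0, 0, 0, 0, 0, 0⟩ ⟨0, 0, 0, 0, 0, 0, 349714, 0, 0, 0, 0, 0, 0⟩ ⟨0, 0, 0, 0, 0, 0, 354603, 0, 0, 0, 0, 0, 0⟩ ⟨0, 0, 0, 0, 0, 0, 354603, 0, 0, 0, 0, 0, 0⟩ ⟨164, 8, -512, 11, 6, 177, 359630, 0, 0, 0, 0, 0, 0⟩))
    (.leaf (.box ⟨138, 2, -955, 6, 4, 299, 839774, 0, 0, 0, 0, 0, 0⟩ ⟨96, 2, -512, 7, 5, 166, 384708, 0, 0, 0, 0, 0, 0⟩ ⟨96, 2, -512, 7, 5, 166, 384708, 0, 0, 0, 0, 0, 0⟩ ⟨140, 3, -512, 9, 7, 175, 355797, 0, 0, 0, 0, 0, 0⟩ ⟨140, 3, -512, 9, 7, 175, 355797, 0, 0, 0, 0, 0, 0⟩ ⟨279, 3, -668, 6, 4, 253, 918542, 0, 0, 0, 0, 0, 10884185122⟩)))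
    (.leaf (.box ⟨71, 2, -512, 7, -1, 153, 317908, 0, 0, 0, 0, 0, 0⟩ ⟨0, 0, 0, 0, 0, 0, 326484, 0, 0, 0, 0, 0, 0⟩ ⟨0, 0, 0, 0, 0, 0, 326484, 0, 0, 0, 0, 0, 0⟩ ⟨0, 0, 0, 0, 0, 0, 335536, 0, 0, 0, 0, 0, 0⟩ ⟨0, 0, 0, 0, 0, 0, 335536, 0, 0, 0, 0, 0, 0⟩ ⟨134, 3, -512, 7, -1, 149, 345103, 0, 0, 0, 0, 0, 0⟩)))
    (.leaf (.box ⟨68, 1, -512, 9, -6, 144, 286408, 0, 0, 0, 0, 0, 0⟩ ⟨0, 0, 0, 0, 0, 0, 299487, 0, 0, 0, 0, 0, 0⟩ ⟨0, 0, 0, 0, 0, 0, 299487, 0, 0, 0, 0, 0, 0⟩ ⟨0, 0, 0, 0, 0, 0, 313817, 0, 0, 0, 0, 0, 0⟩ ⟨0, 0, 0, 0, 0, 0, 313817, 0, 0, 0, 0, 0, 0⟩ ⟨105, 2, -512, 7, -6, 122, 329587, 0, 0, 0, 0, 0, 0⟩))))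
    (.s1
    (.leaf (.box ⟨137, 1, -695, 6, 3, 186, 709244, 0, 0, 0, 0, 0, 0⟩ ⟨126, 3, -512, 10, 6, 138, 308148, 0, 0, 0, 0, 0, 0⟩ ⟨126, 3, -512, 10, 6, 138, 308148, 0, 0, 0, 0, 0, 0⟩ ⟨163, 5, -512, 13, 7, 141, 269394, 0, 0, 0, 0, 0, 0⟩ ⟨163, 5, -512, 13, 7, 141, 269394, 0, 0, 0, 0, 0, 0⟩ ⟨235, 4, -512, 7, 3, 145, 615745, 0, 0, 0, 0, 0, 0⟩))
    (.leaf (.box ⟨93, 1, -512, 11, -2, 129, 252427, 0, 0, 0, 0, 0, 0⟩ ⟨0, 0, 0, 0, 0, 0, 255997, 0, 0, 0, 0, 0, 0⟩ ⟨0, 0, 0, 0, 0, 0, 255997, 0, 0, 0, 0, 0, 0⟩ ⟨0, 0, 0, 0, 0, 0, 259668, 0, 0, 0, 0, 0, 0⟩ ⟨0, 0, 0, 0, 0, 0, 259668, 0, 0, 0, 0, 0, 0⟩ ⟨113, 2, -512, 10, -3, 116, 263446, 0, 0, 0, 0, 0, 0⟩)))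

/-- A piece of the tree. -/
noncomputable def tree17 : Tree LeafX :=
  .s0
    (.s0
    (.s1
    (.s1
    (.s2
    (.leaf (.box ⟨76, 3, -512, 9, 5, 163, 401063, 0, 0, 0, 0, 0, 0⟩ ⟨0, 0, 0, 0, 0, 0, 389381, 0, 0, 0, 0, 0, 0⟩ ⟨0, 0, 0, 0, 0, 0, 389381, 0, 0, 0, 0, 0, 0⟩ ⟨0, 0, 0, 0, 0, 0, 378360, 0, 0, 0, 0, 0, 0⟩ ⟨0, 0, 0, 0, 0, 0, 378360, 0, 0, 0, 0, 0, 0⟩ ⟨185, 10, -512, 13, 9, 186, 367945, 0, 0, 0, 0, 0, 11371954769⟩))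
    (.leaf (.box ⟨159, 2, -937, 6, 5, 307, 969976, 0, 0, 0, 0, 0, 0⟩ ⟨115, 3, -512, 8, 7, 174, 427568, 0, 0, 0, 0, 0, 0⟩ ⟨115, 3, -512, 8, 7, 174, 427568, 0, 0, 0, 0, 0, 0⟩ ⟨159, 5, -512, 11, 10, 186, 365162, 0, 0, 0, 0, 0, 0⟩ ⟨159, 5, -512, 11, 10, 186, 365162, 0, 0, 0, 0, 0, 0⟩ ⟨262, 4, -512, 7, 6, 210, 795031, 0, 0, 0, 0, 0, 15845969972⟩)))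
    (.leaf (.box ⟨80, 2, -512, 8, 0, 159, 367609, 0, 0, 0, 0, 0, 0⟩ ⟨0, 0, 0, 0, 0, 0, 362860, 0, 0, 0, 0, 0, 0⟩ ⟨0, 0, 0, 0, 0, 0, 362860, 0, 0, 0, 0, 0, 0⟩ ⟨0, 0, 0, 0, 0, 0, 358232, 0, 0, 0, 0, 0, 0⟩ ⟨0, 0, 0, 0, 0, 0, 358232, 0, 0, 0, 0, 0, 0⟩ ⟨153, 5, -512, 10, 0, 158, 353720, 0, 0, 0, 0, 0, 0⟩)))
    (.leaf (.box ⟨75, 2, -512, 11, -6, 151, 330487, 0, 0, 0, 0, 0, 0⟩ ⟨0, 0, 0, 0, 0, 0, 332616, 0, 0, 0, 0, 0, 0⟩ ⟨0, 0, 0, 0, 0, 0, 332616, 0, 0, 0, 0, 0, 0⟩ ⟨0, 0, 0, 0, 0, 0, 334772, 0, 0, 0, 0, 0, 0⟩ ⟨0, 0, 0, 0, 0, 0, 334772, 0, 0, 0, 0, 0, 0⟩ ⟨111, 3, -512, 10, -6, 129, 336955, 0, 0, 0, 0, 0, 0⟩)))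
    (.s1
    (.s1
    (.s1
    (.leaf (.skip 0 8))
    (.leaf (.box ⟨88, 2, -512, 7, 4, 173, 424659, 0, 0, 0, 0, 0, 0⟩ ⟨0, 0, 0, 0, 0, 0, 413909, 0, 0, 0, 0, 0, 0⟩ ⟨0, 0, 0, 0, 0, 0, 413909, 0, 0, 0, 0, 0, 0⟩ ⟨0, 0, 0, 0, 0, 0, 403690, 0, 0, 0, 0, 0, 0⟩ ⟨0, 0, 0, 0, 0, 0, 403690, 0, 0, 0, 0, 0, 0⟩ ⟨215, 8, -512, 12, 8, 201, 393963, 0, 0, 0, 0, 0, 4070535035⟩)))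
    (.leaf (.box ⟨86, 2, -512, 7, 0, 168, 394404, 0, 0, 0, 0, 0, 0⟩ ⟨0, 0, 0, 0, 0, 0, 388295, 0, 0, 0, 0, 0, 0⟩ ⟨0, 0, 0, 0, 0, 0, 388295, 0, 0, 0, 0, 0, 0⟩ ⟨0, 0, 0, 0, 0, 0, 382372, 0, 0, 0, 0, 0, 0⟩ ⟨0, 0, 0, 0, 0, 0, 382372, 0, 0, 0, 0, 0, 0⟩ ⟨174, 6, -512, 10, 0, 169, 376626, 0, 0, 0, 0, 0, 0⟩)))
    (.leaf (.box ⟨80, 2, -512, 11, -7, 159, 355076, 0, 0, 0, 0, 0, 0⟩ ⟨0, 0, 0, 0, 0, 0, 356167, 0, 0, 0, 0, 0, 0⟩ ⟨0, 0, 0, 0, 0, 0, 356167, 0, 0, 0, 0, 0, 0⟩ ⟨0, 0, 0, 0, 0, 0, 357264, 0, 0, 0, 0, 0, 0⟩ ⟨0, 0, 0, 0, 0, 0, 357264, 0, 0, 0, 0, 0, 0⟩ ⟨123, 3, -512, 10, -7, 135, 358367, 0, 0, 0, 0, 0, 0⟩))))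
    (.s3
    (.s1
    (.s1
    (.s0
    (.leaf (.box ⟨87, 3, -512, 10, 5, 194, 450453, 0, 0, 0, 0, 0, 0⟩ ⟨0, 0, 0, 0, 0, 0, 454990, 0, 0, 0, 0, 0, 0⟩ ⟨0, 0, 0, 0, 0, 0, 454990, 0, 0, 0, 0, 0, 0⟩ ⟨0, 0, 0, 0, 0, 0, 459619, 0, 0, 0, 0, 0, 0⟩ ⟨0, 0, 0, 0, 0, 0, 459619, 0, 0, 0, 0, 0, 0⟩ ⟨355, 13, -512, 18, 12, 257, 464342, 0, 0, 0, 0, 0, 50788174000⟩))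
    (.leaf (.skip 0 8)))
    (.leaf (.box ⟨91, 2, -512, 7, -2, 191, 420026, 0, 0, 0, 0, 0, 0⟩ ⟨0, 0, 0, 0, 0, 0, 427648, 0, 0, 0, 0, 0, 0⟩ ⟨0, 0, 0, 0, 0, 0, 427648, 0, 0, 0, 0, 0, 0⟩ ⟨0, 0, 0, 0, 0, 0, 435550, 0, 0, 0, 0, 0, 0⟩ ⟨0, 0, 0, 0, 0, 0, 435550, 0, 0, 0, 0, 0, 0⟩ ⟨226, 6, -512, 11, -2, 194, 443750, 0, 0, 0, 0, 0, 0⟩)))
    (.leaf (.box ⟨91, 2, -512, 11, -10, 178, 380469, 0, 0, 0, 0, 0, 0⟩ ⟨0, 0, 0, 0, 0, 0, 393254, 0, 0, 0, 0, 0, 0⟩ ⟨0, 0, 0, 0, 0, 0, 393254, 0, 0, 0, 0, 0, 0⟩ ⟨0, 0, 0, 0, 0, 0, 406928, 0, 0, 0, 0, 0, 0⟩ ⟨0, 0, 0, 0, 0, 0, 406928, 0, 0, 0, 0, 0, 0⟩ ⟨158, 3, -512, 9, -9, 147, 421586, 0, 0, 0, 0, 0, 0⟩)))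
    (.s0
    (.s1
    (.s2
    (.leaf (.box ⟨61, 3, -512, 10, 4, 170, 439602, 0, 0, 0, 0, 0, 0⟩ ⟨0, 0, 0, 0, 0, 0, 427293, 0, 0, 0, 0, 0, 0⟩ ⟨0, 0, 0, 0, 0, 0, 427293, 0, 0, 0, 0, 0, 0⟩ ⟨0, 0, 0, 0, 0, 0, 415653, 0, 0, 0, 0, 0, 0⟩ ⟨0, 0, 0, 0, 0, 0, 415653, 0, 0, 0, 0, 0, 0⟩ ⟨199, 12, -512, 16, 6, 183, 404631, 0, 0, 0, 0, 0, 0⟩))
    (.leaf (.box ⟨75, 3, -512, 10, 5, 179, 436274, 0, 0, 0, 0, 0, 0⟩ ⟨0, 0, 0, 0, 0, 0, 430181, 0, 0, 0, 0, 0, 0⟩ ⟨0, 0, 0, 0, 0, 0, 430181, 0, 0, 0, 0, 0, 0⟩ ⟨0, 0, 0, 0, 0, 0, 424255, 0, 0, 0, 0, 0, 0⟩ ⟨0, 0, 0, 0, 0, 0, 424255, 0, 0, 0, 0, 0, 0⟩ ⟨296, 11, -512, 19, 8, 210, 418490, 0, 0, 0, 0, 0, 9884506803⟩)))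
    (.leaf (.box ⟨72, 2, -512, 9, -6, 164, 389080, 0, 0, 0, 0, 0, 0⟩ ⟨0, 0, 0, 0, 0, 0, 387068, 0, 0, 0, 0, 0, 0⟩ ⟨0, 0, 0, 0, 0, 0, 387068, 0, 0, 0, 0, 0, 0⟩ ⟨0, 0, 0, 0, 0, 0, 385075, 0, 0, 0, 0, 0, 0⟩ ⟨0, 0, 0, 0, 0, 0, 385075, 0, 0, 0, 0, 0, 0⟩ ⟨126, 3, -512, 9, -6, 140, 383103, 0, 0, 0, 0, 0, 0⟩)))
    (.s1
    (.s1
    (.leaf (.skip 0 8))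
    (.leaf (.box ⟨92, 2, -583, 6, 1, 207, 467018, 0, 0, 0, 0, 0, 0⟩ ⟨0, 0, 0, 0, 0, 0, 455143, 0, 0, 0, 0, 0, 0⟩ ⟨0, 0, 0, 0, 0, 0, 455143, 0, 0, 0, 0, 0, 0⟩ ⟨0, 0, 0, 0, 0, 0, 443856, 0, 0, 0, 0, 0, 0⟩ ⟨0, 0, 0, 0, 0, 0, 443856, 0, 0, 0, 0, 0, 0⟩ ⟨190, 5, -512, 9, 1, 188, 433115, 0, 0, 0, 0, 0, 0⟩)))
    (.leaf (.box ⟨124, 1, -801, 6, -4, 271, 1047791, 0, 0, 0, 0, 0, 0⟩ ⟨95, 2, -512, 9, -6, 167, 448189, 0, 0, 0, 0, 0, 0⟩ ⟨95, 2, -512, 9, -6, 167, 448189, 0, 0, 0, 0, 0, 0⟩ ⟨112, 3, -512, 10, -7, 159, 399054, 0, 0, 0, 0, 0, 0⟩ ⟨112, 3, -512, 10, -7, 159, 399054, 0, 0, 0, 0, 0, 0⟩ ⟨194, 2, -701, 6, -4, 203, 919365, 0, 0, 0, 0, 0, 0⟩)))))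

/-- A piece of the tree. -/
noncomputable def tree18 : Tree LeafX :=
  .leaf (.skip 0 8)

/-- A piece of the tree. -/
noncomputable def tree19 : Tree LeafX :=
  .s0
    (.s1
    (.leaf (.box ⟨129, 3, -512, 8, -1, 207, 1310151, 0, 0, 0, 0, 0, 9414175234⟩ ⟨149, 9, -512, 18, -3, 206, 547197, 0, 0, 0, 0, 0, 0⟩ ⟨149, 9, -512, 18, -3, 206, 547197, 0, 0, 0, 0, 0, 0⟩ ⟨197, 17, -512, 26, -4, 206, 418967, 0, 0, 0, 0, 0, 0⟩ ⟨197, 17, -512, 26, -4, 206, 418967, 0, 0, 0, 0, 0, 0⟩ ⟨311, 18, -512, 17, -2, 206, 760557, 0, 0, 0, 0, 0, 16014905712⟩))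
    (.leaf (.box ⟨118, 5, -512, 15, -10, 192, 422475, 0, 0, 0, 0, 0, 0⟩ ⟨0, 0, 0, 0, 0, 0, 406802, 0, 0, 0, 0, 0, 0⟩ ⟨0, 0, 0, 0, 0, 0, 406802, 0, 0, 0, 0, 0, 0⟩ ⟨0, 0, 0, 0, 0, 0, 392250, 0, 0, 0, 0, 0, 0⟩ ⟨0, 0, 0, 0, 0, 0, 392250, 0, 0, 0, 0, 0, 0⟩ ⟨152, 16, -512, 22, -13, 155, 378702, 0, 0, 0, 0, 0, 0⟩)))
    (.s1
    (.leaf (.skip 0 8))
    (.s2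
    (.leaf (.box ⟨122, 6, -512, 16, -15, 227, 570087, 0, 0, 0, 0, 0, 58731037345⟩ ⟨0, 0, 0, 0, 0, 0, 538987, 0, 0, 0, 0, 0, 0⟩ ⟨0, 0, 0, 0, 0, 0, 538987, 0, 0, 0, 0, 0, 0⟩ ⟨0, 0, 0, 0, 0, 0, 511104, 0, 0, 0, 0, 0, 0⟩ ⟨0, 0, 0, 0, 0, 0, 511104, 0, 0, 0, 0, 0, 0⟩ ⟨143, 19, -512, 20, -21, 174, 485964, 0, 0, 0, 0, 0, 0⟩))
    (.leaf (.box ⟨123, 4, -512, 13, -16, 233, 569019, 0, 0, 0, 0, 0, 0⟩ ⟨0, 0, 0, 0, 0, 0, 550578, 0, 0, 0, 0, 0, 0⟩ ⟨0, 0, 0, 0, 0, 0, 550578, 0, 0, 0, 0, 0, 0⟩ ⟨0, 0, 0, 0, 0, 0, 533293, 0, 0, 0, 0, 0, 0⟩ ⟨0, 0, 0, 0, 0, 0, 533293, 0, 0, 0, 0, 0, 0⟩ ⟨196, 12, -512, 16, -18, 185, 517061, 0, 0, 0, 0, 0, 0⟩))))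

/-- A piece of the tree. -/
noncomputable def tree20 : Tree LeafX :=
  .s2
    (.s2
    (.s1
    (.s0
    (.leaf (.box ⟨129, 5, -512, 15, 0, 210, 496871, 0, 0, 0, 0, 0, 0⟩ ⟨0, 0, 0, 0, 0, 0, 480043, 0, 0, 0, 0, 0, 0⟩ ⟨0, 0, 0, 0, 0, 0, 480043, 0, 0, 0, 0, 0, 0⟩ ⟨0, 0, 0, 0, 0, 0, 464317, 0, 0, 0, 0, 0, 0⟩ ⟨0, 0, 0, 0, 0, 0, 464317, 0, 0, 0, 0, 0, 0⟩ ⟨326, 25, -512, 28, 3, 232, 449588, 0, 0, 0, 0, 0, 23441146893⟩))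
    (.leaf (.skip 0 8)))
    (.s0
    (.leaf (.box ⟨112, 3, -512, 12, -11, 196, 440451, 0, 0, 0, 0, 0, 0⟩ ⟨0, 0, 0, 0, 0, 0, 437150, 0, 0, 0, 0, 0, 0⟩ ⟨0, 0, 0, 0, 0, 0, 437150, 0, 0, 0, 0, 0, 0⟩ ⟨0, 0, 0, 0, 0, 0, 433898, 0, 0, 0, 0, 0, 0⟩ ⟨0, 0, 0, 0, 0, 0, 433898, 0, 0, 0, 0, 0, 0⟩ ⟨153, 7, -512, 13, -12, 160, 430693, 0, 0, 0, 0, 0, 0⟩))
    (.leaf (.box ⟨116, 4, -512, 13, -16, 240, 583065, 0, 0, 0, 0, 0, 0⟩ ⟨0, 0, 0, 0, 0, 0, 571173, 0, 0, 0, 0, 0, 0⟩ ⟨0, 0, 0, 0, 0, 0, 571173, 0, 0, 0, 0, 0, 0⟩ ⟨0, 0, 0, 0, 0, 0, 559756, 0, 0, 0, 0, 0, 0⟩ ⟨0, 0, 0, 0, 0, 0, 559756, 0, 0, 0, 0, 0, 0⟩ ⟨185, 10, -512, 15, -17, 195, 548786, 0, 0, 0, 0, 0, 0⟩))))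
    (.s1
    (.s0
    (.leaf (.box ⟨127, 5, -512, 14, 1, 211, 495956, 0, 0, 0, 0, 0, 0⟩ ⟨0, 0, 0, 0, 0, 0, 480156, 0, 0, 0, 0, 0, 0⟩ ⟨0, 0, 0, 0, 0, 0, 480156, 0, 0, 0, 0, 0, 0⟩ ⟨0, 0, 0, 0, 0, 0, 465331, 0, 0, 0, 0, 0, 0⟩ ⟨0, 0, 0, 0, 0, 0, 465331, 0, 0, 0, 0, 0, 0⟩ ⟨330, 25, -512, 29, 4, 237, 451393, 0, 67054580, 0, 0, 0, 29276856091⟩))
    (.leaf (.skip 0 8)))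
    (.s0
    (.leaf (.box ⟨113, 3, -512, 12, -11, 197, 442455, 0, 0, 0, 0, 0, 0⟩ ⟨0, 0, 0, 0, 0, 0, 439798, 0, 0, 0, 0, 0, 0⟩ ⟨0, 0, 0, 0, 0, 0, 439798, 0, 0, 0, 0, 0, 0⟩ ⟨0, 0, 0, 0, 0, 0, 437173, 0, 0, 0, 0, 0, 0⟩ ⟨0, 0, 0, 0, 0, 0, 437173, 0, 0, 0, 0, 0, 0⟩ ⟨158, 7, -512, 13, -12, 161, 434578, 0, 0, 0, 0, 0, 0⟩))
    (.leaf (.box ⟨117, 4, -512, 13, -16, 242, 585053, 0, 0, 0, 0, 0, 0⟩ ⟨0, 0, 0, 0, 0, 0, 574004, 0, 0, 0, 0, 0, 0⟩ ⟨0, 0, 0, 0, 0, 0, 574004, 0, 0, 0, 0, 0, 0⟩ ⟨0, 0, 0, 0, 0, 0, 563365, 0, 0, 0, 0, 0, 0⟩ ⟨0, 0, 0, 0, 0, 0, 563365, 0, 0, 0, 0, 0, 0⟩ ⟨193, 9, -512, 15, -17, 198, 553112, 0, 0, 0, 0, 0, 0⟩)))))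
    (.s2
    (.s1
    (.s0
    (.leaf (.box ⟨133, 5, -512, 15, 1, 213, 495154, 0, 0, 0, 0, 0, 0⟩ ⟨0, 0, 0, 0, 0, 0, 480337, 0, 0, 0, 0, 0, 0⟩ ⟨0, 0, 0, 0, 0, 0, 480337, 0, 0, 0, 0, 0, 0⟩ ⟨0, 0, 0, 0, 0, 0, 466381, 0, 0, 0, 0, 0, 0⟩ ⟨0, 0, 0, 0, 0, 0, 466381, 0, 0, 0, 0, 0, 0⟩ ⟨348, 25, -512, 29, 5, 243, 453213, 0, 0, 0, 0, 0, 34022417461⟩))
    (.leaf (.skip 0 8)))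
    (.s0
    (.leaf (.box ⟨113, 3, -512, 12, -11, 198, 444550, 0, 0, 0, 0, 0, 0⟩ ⟨0, 0, 0, 0, 0, 0, 442530, 0, 0, 0, 0, 0, 0⟩ ⟨0, 0, 0, 0, 0, 0, 442530, 0, 0, 0, 0, 0, 0⟩ ⟨0, 0, 0, 0, 0, 0, 440527, 0, 0, 0, 0, 0, 0⟩ ⟨0, 0, 0, 0, 0, 0, 440527, 0, 0, 0, 0, 0, 0⟩ ⟨157, 6, -512, 12, -12, 162, 438542, 0, 0, 0, 0, 0, 0⟩))
    (.leaf (.box ⟨121, 4, -512, 14, -16, 244, 587126, 0, 0, 0, 0, 0, 0⟩ ⟨0, 0, 0, 0, 0, 0, 576908, 0, 0, 0, 0, 0, 0⟩ ⟨0, 0, 0, 0, 0, 0, 576908, 0, 0, 0, 0, 0, 0⟩ ⟨0, 0, 0, 0, 0, 0, 567040, 0, 0, 0, 0, 0, 0⟩ ⟨0, 0, 0, 0, 0, 0, 567040, 0, 0, 0, 0, 0, 0⟩ ⟨199, 9, -512, 15, -17, 201, 557503, 0, 0, 0, 0, 0, 0⟩))))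
    (.s1
    (.s0
    (.leaf (.box ⟨139, 2, -553, 6, 1, 231, 1279429, 0, 0, 0, 0, 0, 0⟩ ⟨151, 6, -512, 14, 2, 219, 541850, 0, 0, 0, 0, 0, 0⟩ ⟨151, 6, -512, 14, 2, 219, 541850, 0, 0, 0, 0, 0, 0⟩ ⟨208, 12, -512, 22, 3, 228, 444080, 0, 0, 0, 0, 0, 0⟩ ⟨208, 12, -512, 22, 3, 228, 444080, 0, 0, 0, 0, 0, 0⟩ ⟨361, 12, -512, 14, 3, 248, 934916, 0, 0, 0, 0, 0, 36924119614⟩))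
    (.leaf (.skip 0 8)))
    (.s0
    (.leaf (.box ⟨114, 3, -512, 13, -11, 199, 446736, 0, 0, 0, 0, 0, 0⟩ ⟨0, 0, 0, 0, 0, 0, 445344, 0, 0, 0, 0, 0, 0⟩ ⟨0, 0, 0, 0, 0, 0, 445344, 0, 0, 0, 0, 0, 0⟩ ⟨0, 0, 0, 0, 0, 0, 443961, 0, 0, 0, 0, 0, 0⟩ ⟨0, 0, 0, 0, 0, 0, 443961, 0, 0, 0, 0, 0, 0⟩ ⟨161, 6, -512, 13, -12, 164, 442585, 0, 0, 0, 0, 0, 0⟩))
    (.leaf (.box ⟨120, 4, -512, 14, -16, 246, 589283, 0, 0, 0, 0, 0, 0⟩ ⟨0, 0, 0, 0, 0, 0, 579885, 0, 0, 0, 0, 0, 0⟩ ⟨0, 0, 0, 0, 0, 0, 579885, 0, 0, 0, 0, 0, 0⟩ ⟨0, 0, 0, 0, 0, 0, 570782, 0, 0, 0, 0, 0, 0⟩ ⟨0, 0, 0, 0, 0, 0, 570782, 0, 0, 0, 0, 0, 0⟩ ⟨216, 9, -512, 16, -17, 204, 561960, 0, 0, 0, 0, 0, 0⟩)))))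

/-- A piece of the tree. -/
noncomputable def tree21 : Tree LeafX :=
  .s3
    (.s2
    (.s1
    (.s0
    (.leaf (.box ⟨121, 5, -512, 15, 0, 227, 489604, 0, 0, 0, 0, 0, 0⟩ ⟨0, 0, 0, 0, 0, 0, 494828, 0, 0, 0, 0, 0, 0⟩ ⟨0, 0, 0, 0, 0, 0, 494828, 0, 0, 0, 0, 0, 0⟩ ⟨0, 0, 0, 0, 0, 0, 500165, 0, 0, 0, 0, 0, 0⟩ ⟨0, 0, 0, 0, 0, 0, 500165, 0, 0, 0, 0, 0, 0⟩ ⟨402, 26, -512, 33, 5, 279, 505617, 0, 0, 0, 0, 0, 56062167266⟩))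
    (.leaf (.skip 0 8)))
    (.leaf (.box ⟨185, 4, -512, 18, -19, 234, 447456, 0, 0, 0, 0, 0, 0⟩ ⟨0, 0, 0, 0, 0, 0, 462047, 0, 0, 0, 0, 0, 0⟩ ⟨0, 0, 0, 0, 0, 0, 462047, 0, 0, 0, 0, 0, 0⟩ ⟨0, 0, 0, 0, 0, 0, 477622, 0, 0, 0, 0, 0, 0⟩ ⟨0, 0, 0, 0, 0, 0, 477622, 0, 0, 0, 0, 0, 0⟩ ⟨255, 9, -512, 17, -17, 190, 494282, 0, 302436794, 0, 0, 0, 0⟩)))
    (.s1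
    (.s0
    (.leaf (.box ⟨122, 2, -512, 7, 0, 230, 1250527, 0, 0, 0, 0, 0, 0⟩ ⟨151, 6, -512, 15, 2, 239, 552013, 0, 0, 0, 0, 0, 0⟩ ⟨151, 6, -512, 15, 2, 239, 552013, 0, 0, 0, 0, 0, 0⟩ ⟨228, 12, -512, 23, 3, 256, 494024, 0, 0, 0, 0, 0, 0⟩ ⟨228, 12, -512, 23, 3, 256, 494024, 0, 0, 0, 0, 0, 0⟩ ⟨455, 11, -512, 15, 3, 297, 1222117, 0, 0, 0, 0, 0, 65405794293⟩))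
    (.leaf (.skip 0 8)))
    (.leaf (.box ⟨192, 4, -512, 18, -19, 238, 452400, 0, 0, 0, 0, 0, 0⟩ ⟨0, 0, 0, 0, 0, 0, 468307, 0, 0, 0, 0, 0, 0⟩ ⟨0, 0, 0, 0, 0, 0, 468307, 0, 0, 0, 0, 0, 0⟩ ⟨0, 0, 0, 0, 0, 0, 485373, 0, 0, 0, 0, 0, 0⟩ ⟨0, 0, 0, 0, 0, 0, 485373, 0, 0, 0, 0, 0, 0⟩ ⟨288, 8, -512, 17, -17, 196, 503729, 0, 0, 0, 0, 0, 0⟩))))
    (.s3
    (.s1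
    (.s0
    (.leaf (.box ⟨100, 4, -512, 12, 3, 213, 508771, 0, 0, 0, 0, 0, 0⟩ ⟨0, 0, 0, 0, 0, 0, 503012, 0, 0, 0, 0, 0, 0⟩ ⟨0, 0, 0, 0, 0, 0, 503012, 0, 0, 0, 0, 0, 0⟩ ⟨0, 0, 0, 0, 0, 0, 497382, 0, 0, 0, 0, 0, 0⟩ ⟨0, 0, 0, 0, 0, 0, 497382, 0, 0, 0, 0, 0, 0⟩ ⟨366, 24, -512, 32, 8, 259, 491876, 0, 0, 0, 0, 0, 32702606731⟩))
    (.leaf (.skip 0 8)))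
    (.s0
    (.leaf (.box ⟨97, 2, -512, 11, -10, 199, 461399, 0, 0, 0, 0, 0, 0⟩ ⟨0, 0, 0, 0, 0, 0, 466135, 0, 0, 0, 0, 0, 0⟩ ⟨0, 0, 0, 0, 0, 0, 466135, 0, 0, 0, 0, 0, 0⟩ ⟨0, 0, 0, 0, 0, 0, 470968, 0, 0, 0, 0, 0, 0⟩ ⟨0, 0, 0, 0, 0, 0, 470968, 0, 0, 0, 0, 0, 0⟩ ⟨167, 5, -512, 12, -10, 166, 475902, 0, 0, 0, 0, 0, 0⟩))
    (.leaf (.box ⟨105, 3, -512, 12, -15, 250, 607683, 0, 0, 0, 0, 0, 0⟩ ⟨0, 0, 0, 0, 0, 0, 607188, 0, 0, 0, 0, 0, 0⟩ ⟨0, 0, 0, 0, 0, 0, 607188, 0, 0, 0, 0, 0, 0⟩ ⟨0, 0, 0, 0, 0, 0, 606693, 0, 0, 0, 0, 0, 0⟩ ⟨0, 0, 0, 0, 0, 0, 606693, 0, 0, 0, 0, 0, 0⟩ ⟨220, 7, -512, 13, -15, 212, 606198, 0, 0, 0, 0, 0, 0⟩))))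
    (.s1
    (.leaf (.box ⟨178, 2, -512, 6, 2, 232, 1374638, 0, 0, 0, 0, 0, 0⟩ ⟨214, 7, -512, 19, 5, 241, 549640, 0, 0, 0, 0, 0, 0⟩ ⟨214, 7, -512, 19, 5, 241, 549640, 0, 0, 0, 0, 0, 0⟩ ⟨277, 16, -512, 31, 8, 258, 457676, 0, 0, 0, 0, 0, 0⟩ ⟨277, 16, -512, 31, 8, 258, 457676, 0, 0, 0, 0, 0, 0⟩ ⟨506, 20, -512, 25, 7, 300, 974872, 0, 0, 0, 0, 0, 46181572996⟩))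
    (.s0
    (.leaf (.box ⟨90, 2, -512, 10, -9, 193, 462168, 0, 0, 0, 0, 0, 0⟩ ⟨0, 0, 0, 0, 0, 0, 457971, 0, 0, 0, 0, 0, 0⟩ ⟨0, 0, 0, 0, 0, 0, 457971, 0, 0, 0, 0, 0, 0⟩ ⟨0, 0, 0, 0, 0, 0, 453848, 0, 0, 0, 0, 0, 0⟩ ⟨0, 0, 0, 0, 0, 0, 453848, 0, 0, 0, 0, 0, 0⟩ ⟨153, 5, -512, 11, -9, 164, 449799, 0, 0, 0, 0, 0, 0⟩))
    (.leaf (.box ⟨103, 3, -512, 12, -13, 243, 610133, 0, 0, 0, 0, 0, 0⟩ ⟨0, 0, 0, 0, 0, 0, 597593, 0, 0, 0, 0, 0, 0⟩ ⟨0, 0, 0, 0, 0, 0, 597593, 0, 0, 0, 0, 0, 0⟩ ⟨0, 0, 0, 0, 0, 0, 585557, 0, 0, 0, 0, 0, 0⟩ ⟨0, 0, 0, 0, 0, 0, 585557, 0, 0, 0, 0, 0, 0⟩ ⟨214, 8, -512, 15, -14, 208, 573996, 0, 0, 0, 0, 0, 0⟩)))))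

/-- A piece of the tree. -/
noncomputable def tree22 : Tree LeafX :=
  .s0
    (.s1
    (.s1
    (.leaf (.skip 0 8))
    (.leaf (.box ⟨152, 3, -512, 10, -1, 229, 487119, 0, 0, 0, 0, 0, 0⟩ ⟨0, 0, 0, 0, 0, 0, 480195, 0, 0, 0, 0, 0, 0⟩ ⟨0, 0, 0, 0, 0, 0, 480195, 0, 0, 0, 0, 0, 0⟩ ⟨0, 0, 0, 0, 0, 0, 473464, 0, 0, 0, 0, 0, 0⟩ ⟨0, 0, 0, 0, 0, 0, 473464, 0, 0, 0, 0, 0, 0⟩ ⟨419, 11, -512, 19, 1, 271, 466919, 0, 0, 0, 0, 0, 0⟩)))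
    (.leaf (.box ⟨138, 3, -512, 14, -13, 213, 458516, 0, 0, 0, 0, 0, 0⟩ ⟨0, 0, 0, 0, 0, 0, 460159, 0, 0, 0, 0, 0, 0⟩ ⟨0, 0, 0, 0, 0, 0, 460159, 0, 0, 0, 0, 0, 0⟩ ⟨0, 0, 0, 0, 0, 0, 461814, 0, 0, 0, 0, 0, 0⟩ ⟨0, 0, 0, 0, 0, 0, 461814, 0, 0, 0, 0, 0, 0⟩ ⟨256, 5, -512, 15, -12, 179, 463480, 0, 0, 0, 0, 0, 0⟩)))
    (.s1
    (.leaf (.skip 0 8))
    (.leaf (.box ⟨174, 4, -512, 16, -18, 281, 599338, 0, 0, 0, 0, 0, 0⟩ ⟨0, 0, 0, 0, 0, 0, 594469, 0, 0, 0, 0, 0, 0⟩ ⟨0, 0, 0, 0, 0, 0, 594469, 0, 0, 0, 0, 0, 0⟩ ⟨0, 0, 0, 0, 0, 0, 589679, 0, 0, 0, 0, 0, 0⟩ ⟨0, 0, 0, 0, 0, 0, 589679, 0, 0, 0, 0, 0, 0⟩ ⟨413, 8, -512, 19, -18, 246, 584964, 0, 0, 0, 0, 0, 0⟩)))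

/-- A piece of the tree. -/
noncomputable def tree23 : Tree LeafX :=
  .leaf (.skip 0 8)

/-- A piece of the tree. -/
noncomputable def tree24 : Tree LeafX :=
  .leaf (.skip 0 8)

/-- A piece of the tree. -/
noncomputable def tree25 : Tree LeafX :=
  .s0
    (.s0
    (.s3
    (.s1
    (.s2
    (.leaf (.box ⟨104, 2, -512, 11, 15, 108, 201044, 0, 0, 0, 0, 0, 0⟩ ⟨0, 0, 0, 0, 0, 0, 210532, 0, 0, 0, 0, 0, 0⟩ ⟨0, 0, 0, 0, 0, 0, 210532, 0, 0, 0, 0, 0, 0⟩ ⟨0, 0, 0, 0, 0, 0, 220959, 0, 0, 0, 0, 0, 0⟩ ⟨0, 0, 0, 0, 0, 0, 220959, 0, 0, 0, 0, 0, 0⟩ ⟨314, 8, -512, 21, 26, 172, 232472, 0, 0, 0, 0, 0, 5046620961⟩))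
    (.leaf (.box ⟨126, 1, -512, 12, 16, 112, 202422, 0, 0, 0, 0, 0, 0⟩ ⟨0, 0, 0, 0, 0, 0, 214278, 0, 0, 0, 0, 0, 0⟩ ⟨0, 0, 0, 0, 0, 0, 214278, 0, 0, 0, 0, 0, 0⟩ ⟨0, 0, 0, 0, 0, 0, 227610, 0, 0, 0, 0, 0, 0⟩ ⟨0, 0, 0, 0, 0, 0, 227610, 0, 0, 0, 0, 0, 0⟩ ⟨427, 4, -512, 23, 27, 198, 242709, 0, 0, 0, 0, 0, 0⟩)))
    (.leaf (.box ⟨118, 1, -512, 9, 8, 105, 187755, 0, 0, 0, 0, 0, 0⟩ ⟨0, 0, 0, 0, 0, 0, 197777, 0, 0, 0, 0, 0, 0⟩ ⟨0, 0, 0, 0, 0, 0, 197777, 0, 0, 0, 0, 0, 0⟩ ⟨0, 0, 0, 0, 0, 0, 208929, 0, 0, 0, 0, 0, 0⟩ ⟨0, 0, 0, 0, 0, 0, 208929, 0, 0, 0, 0, 0, 0⟩ ⟨242, 2, -512, 14, 10, 136, 221413, 0, 0, 0, 0, 0, 0⟩)))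
    (.s2
    (.leaf (.box ⟨97, 2, -512, 14, 14, 96, 190976, 0, 0, 0, 0, 0, 0⟩ ⟨0, 0, 0, 0, 0, 0, 193842, 0, 0, 0, 0, 0, 0⟩ ⟨0, 0, 0, 0, 0, 0, 193842, 0, 0, 0, 0, 0, 0⟩ ⟨0, 0, 0, 0, 0, 0, 196795, 0, 0, 0, 0, 0, 0⟩ ⟨0, 0, 0, 0, 0, 0, 196795, 0, 0, 0, 0, 0, 0⟩ ⟨270, 7, -512, 24, 21, 131, 199839, 0, 0, 0, 0, 0, 0⟩))
    (.leaf (.box ⟨128, 1, -538, 6, 6, 105, 453263, 0, 0, 0, 0, 0, 0⟩ ⟨167, 2, -512, 17, 13, 108, 205880, 0, 0, 0, 0, 0, 0⟩ ⟨167, 2, -512, 17, 13, 108, 205880, 0, 0, 0, 0, 0, 0⟩ ⟨230, 2, -512, 20, 16, 121, 201906, 0, 0, 0, 0, 0, 0⟩ ⟨230, 2, -512, 20, 16, 121, 201906, 0, 0, 0, 0, 0, 0⟩ ⟨351, 1, -512, 11, 7, 141, 530436, 0, 0, 0, 0, 0, 0⟩))))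
    (.s3
    (.s3
    (.s1
    (.s0
    (.leaf (.box ⟨133, 1, -542, 6, 9, 142, 589547, 0, 0, 0, 0, 0, 0⟩ ⟨196, 3, -512, 14, 21, 155, 287781, 0, 0, 0, 0, 0, 0⟩ ⟨196, 3, -512, 14, 21, 155, 287781, 0, 0, 0, 0, 0, 0⟩ ⟨334, 5, -512, 19, 29, 195, 287228, 0, 0, 0, 0, 0, 0⟩ ⟨334, 5, -512, 19, 29, 195, 287228, 0, 0, 0, 0, 0, 0⟩ ⟨512, 3, -368, 9, 12, 233, 876591, 0, 0, 0, 0, 0, 14992590040⟩))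
    (.leaf (.skip 0 8)))
    (.s2
    (.leaf (.box ⟨157, 1, -812, 6, 8, 210, 572427, 0, 0, 0, 0, 0, 0⟩ ⟨132, 2, -512, 10, 11, 142, 273114, 0, 0, 0, 0, 0, 0⟩ ⟨132, 2, -512, 10, 11, 142, 273114, 0, 0, 0, 0, 0, 0⟩ ⟨197, 3, -512, 12, 14, 159, 272760, 0, 0, 0, 0, 0, 0⟩ ⟨197, 3, -512, 12, 14, 159, 272760, 0, 0, 0, 0, 0, 0⟩ ⟨376, 2, -604, 6, 7, 228, 881815, 0, 0, 0, 555384, 0, 0⟩))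
    (.leaf (.box ⟨138, 1, -512, 11, 12, 142, 244194, 0, 0, 0, 0, 0, 0⟩ ⟨0, 0, 0, 0, 0, 0, 261697, 0, 0, 0, 0, 0, 0⟩ ⟨0, 0, 0, 0, 0, 0, 261697, 0, 0, 0, 0, 0, 0⟩ ⟨0, 0, 0, 0, 0, 0, 281902, 0, 0, 0, 0, 0, 0⟩ ⟨0, 0, 0, 0, 0, 0, 281902, 0, 0, 0, 0, 0, 0⟩ ⟨471, 4, -512, 21, 18, 233, 305488, 0, 0, 0, 0, 0, 0⟩))))
    (.s1
    (.s0
    (.leaf (.box ⟨120, 2, -512, 11, 19, 128, 259309, 0, 0, 0, 0, 0, 0⟩ ⟨0, 0, 0, 0, 0, 0, 270184, 0, 0, 0, 0, 0, 0⟩ ⟨0, 0, 0, 0, 0, 0, 270184, 0, 0, 0, 0, 0, 0⟩ ⟨0, 0, 0, 0, 0, 0, 282010, 0, 0, 0, 0, 0, 0⟩ ⟨0, 0, 0, 0, 0, 0, 282010, 0, 0, 0, 0, 0, 0⟩ ⟨512, 9, -446, 27, 39, 242, 294918, 0, 0, 0, 0, 0, 16272025606⟩))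
    (.leaf (.skip 0 8)))
    (.leaf (.box ⟨209, 1, -686, 6, 7, 175, 574350, 0, 0, 0, 0, 0, 0⟩ ⟨201, 2, -512, 11, 12, 142, 276101, 0, 0, 0, 0, 0, 0⟩ ⟨201, 2, -512, 11, 12, 142, 276101, 0, 0, 0, 0, 0, 0⟩ ⟨280, 3, -512, 15, 15, 160, 267415, 0, 0, 0, 0, 0, 0⟩ ⟨280, 3, -512, 15, 15, 160, 267415, 0, 0, 0, 0, 0, 0⟩ ⟨425, 2, -512, 8, 7, 195, 759075, 0, 0, 0, 0, 0, 0⟩))))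
    (.s1
    (.leaf (.box ⟨186, 1, -512, 6, 9, 126, 620004, 0, 0, 0, 0, 0, 0⟩ ⟨256, 4, -512, 16, 24, 143, 280805, 0, 0, 0, 0, 0, 0⟩ ⟨256, 4, -512, 16, 24, 143, 280805, 0, 0, 0, 0, 0, 0⟩ ⟨417, 8, -512, 27, 34, 175, 256997, 0, 0, 0, 0, 0, 0⟩ ⟨417, 8, -512, 27, 34, 175, 256997, 0, 0, 0, 0, 0, 0⟩ ⟨512, 5, -330, 14, 16, 172, 597026, 0, 0, 0, 0, 0, 8356610219⟩))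
    (.s2
    (.leaf (.box ⟨108, 2, -512, 9, 13, 119, 248610, 0, 0, 0, 0, 0, 0⟩ ⟨0, 0, 0, 0, 0, 0, 250096, 0, 0, 0, 0, 0, 0⟩ ⟨0, 0, 0, 0, 0, 0, 250096, 0, 0, 0, 0, 0, 0⟩ ⟨0, 0, 0, 0, 0, 0, 251599, 0, 0, 0, 0, 0, 0⟩ ⟨0, 0, 0, 0, 0, 0, 251599, 0, 0, 0, 0, 0, 0⟩ ⟨278, 6, -512, 17, 21, 163, 253120, 0, 0, 0, 0, 0, 0⟩))
    (.leaf (.box ⟨144, 1, -512, 11, 12, 128, 249780, 0, 0, 0, 0, 0, 0⟩ ⟨0, 0, 0, 0, 0, 0, 254346, 0, 0, 0, 0, 0, 0⟩ ⟨0, 0, 0, 0, 0, 0, 254346, 0, 0, 0, 0, 0, 0⟩ ⟨0, 0, 0, 0, 0, 0, 259082, 0, 0, 0, 0, 0, 0⟩ ⟨0, 0, 0, 0, 0, 0, 259082, 0, 0, 0, 0, 0, 0⟩ ⟨395, 4, -512, 20, 20, 189, 263997, 0, 0, 0, 0, 0, 0⟩))))))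
    (.s0
    (.s1
    (.leaf (.skip 0 8))
    (.s1
    (.leaf (.skip 0 8))
    (.s2
    (.leaf (.box ⟨221, 1, -735, 6, 8, 227, 753066, 0, 0, 0, 0, 0, 0⟩ ⟨192, 3, -512, 10, 15, 173, 342920, 0, 0, 0, 0, 0, 0⟩ ⟨192, 3, -512, 10, 15, 173, 342920, 0, 0, 0, 0, 0, 0⟩ ⟨272, 5, -512, 14, 21, 199, 306571, 0, 0, 0, 0, 0, 0⟩ ⟨272, 5, -512, 14, 21, 199, 306571, 0, 0, 0, 0, 0, 0⟩ ⟨485, 5, -512, 10, 13, 263, 708036, 0, 0, 0, 0, 0, 17354876921⟩))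
    (.leaf (.box ⟨212, 2, -512, 11, 16, 183, 312632, 0, 0, 0, 0, 0, 0⟩ ⟨0, 0, 0, 0, 0, 0, 318416, 0, 0, 0, 0, 0, 0⟩ ⟨0, 0, 0, 0, 0, 0, 318416, 0, 0, 0, 0, 0, 0⟩ ⟨0, 0, 0, 0, 0, 0, 324417, 0, 0, 0, 0, 0, 0⟩ ⟨0, 0, 0, 0, 0, 0, 324417, 0, 0, 0, 0, 0, 0⟩ ⟨512, 5, -278, 18, 22, 225, 330649, 0, 0, 0, 0, 0, 0⟩)))))
    (.leaf (.skip 0 8)))

/-- A piece of the tree. -/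
noncomputable def tree26 : Tree LeafX :=
  .s2
    (.s2
    (.s0
    (.s0
    (.leaf (.box ⟨169, 0, -512, 8, 5, 112, 432030, 0, 0, 0, 0, 0, 0⟩ ⟨239, 0, -512, 18, 13, 124, 209877, 0, 0, 0, 0, 0, 0⟩ ⟨239, 0, -512, 18, 13, 124, 209877, 0, 0, 0, 0, 0, 0⟩ ⟨352, 0, -512, 22, 14, 141, 212657, 0, 0, 0, 0, 0, 0⟩ ⟨352, 0, -512, 22, 14, 141, 212657, 0, 0, 0, 0, 0, 0⟩ ⟨509, 0, -512, 10, 6, 167, 580573, 0, 0, 0, 0, 0, 0⟩))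
    (.leaf (.box ⟨242, 2, -512, 26, 20, 156, 250192, 0, 0, 0, 0, 0, 0⟩ ⟨0, 0, 0, 0, 0, 0, 259264, 0, 0, 0, 0, 0, 0⟩ ⟨0, 0, 0, 0, 0, 0, 259264, 0, 0, 0, 0, 0, 0⟩ ⟨0, 0, 0, 0, 0, 0, 269019, 0, 0, 0, 0, 0, 0⟩ ⟨0, 0, 0, 0, 0, 0, 269019, 0, 0, 0, 0, 0, 0⟩ ⟨512, 2, -179, 25, 16, 130, 279536, 0, 0, 0, 0, 0, 0⟩)))
    (.leaf (.box ⟨512, 9, -236, 67, 36, 205, 314053, 0, 0, 0, 0, 0, 0⟩ ⟨0, 0, 0, 0, 0, 0, 323868, 0, 0, 0, 0, 0, 0⟩ ⟨0, 0, 0, 0, 0, 0, 323868, 0, 0, 0, 0, 0, 0⟩ ⟨0, 0, 0, 0, 0, 0, 334317, 0, 0, 0, 0, 0, 0⟩ ⟨0, 0, 0, 0, 0, 0, 334317, 0, 0, 0, 0, 0, 0⟩ ⟨512, 7, 111, 28, 9, 47, 345461, 0, 0, 0, 0, 0, 0⟩)))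
    (.s0
    (.leaf (.box ⟨380, -1, -512, 38, 18, 150, 199017, 0, 0, 0, 3154855, 0, 0⟩ ⟨0, 0, 0, 0, 0, 0, 208025, 0, 0, 0, 0, 0, 0⟩ ⟨0, 0, 0, 0, 0, 0, 208025, 0, 0, 0, 0, 0, 0⟩ ⟨0, 0, 0, 0, 0, 0, 217886, 0, 0, 0, 0, 0, 0⟩ ⟨0, 0, 0, 0, 0, 0, 217886, 0, 0, 0, 0, 0, 0⟩ ⟨512, -1, -182, 26, 10, 100, 228729, 0, 0, 0, 0, 0, 0⟩))
    (.leaf (.box ⟨512, 3, -25, 46, 20, 123, 314359, 0, 0, 0, 0, 0, 0⟩ ⟨0, 0, 0, 0, 0, 0, 326828, 0, 0, 0, 0, 0, 0⟩ ⟨0, 0, 0, 0, 0, 0, 326828, 0, 0, 0, 0, 0, 0⟩ ⟨0, 0, 0, 0, 0, 0, 340327, 0, 0, 0, 0, 0, 0⟩ ⟨0, 0, 0, 0, 0, 0, 340327, 0, 0, 0, 0, 0, 0⟩ ⟨512, 2, 122, 21, 6, 36, 354989, 0, 0, 0, 0, 0, 0⟩))))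
    (.s0
    (.leaf (.box ⟨512, -4, -203, 27, 7, 83, 202353, 0, 0, 0, 0, 0, 0⟩ ⟨0, 0, 0, 0, 0, 0, 212505, 0, 0, 0, 0, 0, 0⟩ ⟨0, 0, 0, 0, 0, 0, 212505, 0, 0, 0, 0, 0, 0⟩ ⟨0, 0, 0, 0, 0, 0, 223728, 0, 0, 0, 0, 0, 0⟩ ⟨0, 0, 0, 0, 0, 0, 223728, 0, 0, 0, 0, 0, 0⟩ ⟨512, -3, -107, 21, 5, 82, 236203, 0, 0, 0, 0, 2326646581, 0⟩))
    (.leaf (.skip 8 0)))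

theorem parts0 :
    (runPathS conQ supQ (fun n Qs i d x => leafR conQ seg n Qs i d x) [.d0 false, .d1 false, .d2 false] tree0 0 0 0
      (joinS (lay.B * lay.size) rootQ) = true) ∧
    (runPathS conQ supQ (fun n Qs i d x => leafR conQ seg n Qs i d x) [.d0 false, .d1 false, .d2 true, .d0 false, .d1 false] tree1 0 0 0
      (joinS (lay.B * lay.size) rootQ) = true) ∧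
    (runPathS conQ supQ (fun n Qs i d x => leafR conQ seg n Qs i d x) [.d0 false, .d1 false, .d2 true, .d0 false, .d1 true] tree2 0 0 0
      (joinS (lay.B * lay.size) rootQ) = true) ∧
    (runPathS conQ supQ (fun n Qs i d x => leafR conQ seg n Qs i d x) [.d0 false, .d1 false, .d2 true, .d0 true, .d1 false, .d0 false] tree3 0 0 0
      (joinS (lay.B * lay.size) rootQ) = true) ∧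
    (runPathS conQ supQ (fun n Qs i d x => leafR conQ seg n Qs i d x) [.d0 false, .d1 false, .d2 true, .d0 true, .d1 false, .d0 true] tree4 0 0 0
      (joinS (lay.B * lay.size) rootQ) = true) ∧
    (runPathS conQ supQ (fun n Qs i d x => leafR conQ seg n Qs i d x) [.d0 false, .d1 false, .d2 true, .d0 true, .d1 true] tree5 0 0 0
      (joinS (lay.B * lay.size) rootQ) = true) ∧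
    (runPathS conQ supQ (fun n Qs i d x => leafR conQ seg n Qs i d x) [.d0 false, .d1 true, .d2 false, .d0 false, .d1 false] tree6 0 0 0
      (joinS (lay.B * lay.size) rootQ) = true) ∧
    (runPathS conQ supQ (fun n Qs i d x => leafR conQ seg n Qs i d x) [.d0 false, .d1 true, .d2 false, .d0 false, .d1 true, .d2 false] tree7 0 0 0
      (joinS (lay.B * lay.size) rootQ) = true) ∧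
    (runPathS conQ supQ (fun n Qs i d x => leafR conQ seg n Qs i d x) [.d0 false, .d1 true, .d2 false, .d0 false, .d1 true, .d2 true] tree8 0 0 0
      (joinS (lay.B * lay.size) rootQ) = true) ∧
    (runPathS conQ supQ (fun n Qs i d x => leafR conQ seg n Qs i d x) [.d0 false, .d1 true, .d2 false, .d0 true] tree9 0 0 0
      (joinS (lay.B * lay.size) rootQ) = true) ∧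
    (runPathS conQ supQ (fun n Qs i d x => leafR conQ seg n Qs i d x) [.d0 false, .d1 true, .d2 true, .d0 false] tree10 0 0 0
      (joinS (lay.B * lay.size) rootQ) = true) ∧
    (runPathS conQ supQ (fun n Qs i d x => leafR conQ seg n Qs i d x) [.d0 false, .d1 true, .d2 true, .d0 true] tree11 0 0 0
      (joinS (lay.B * lay.size) rootQ) = true) ∧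
    (runPathS conQ supQ (fun n Qs i d x => leafR conQ seg n Qs i d x) [.d0 true, .d1 false, .d2 false, .d0 false, .d1 false, .d0 false] tree12 0 0 0
      (joinS (lay.B * lay.size) rootQ) = true) ∧
    (runPathS conQ supQ (fun n Qs i d x => leafR conQ seg n Qs i d x) [.d0 true, .d1 false, .d2 false, .d0 false, .d1 false, .d0 true] tree13 0 0 0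
      (joinS (lay.B * lay.size) rootQ) = true) ∧
    (runPathS conQ supQ (fun n Qs i d x => leafR conQ seg n Qs i d x) [.d0 true, .d1 false, .d2 false, .d0 false, .d1 true, .d0 false] tree14 0 0 0
      (joinS (lay.B * lay.size) rootQ) = true) ∧
    (runPathS conQ supQ (fun n Qs i d x => leafR conQ seg n Qs i d x) [.d0 true, .d1 false, .d2 false, .d0 false, .d1 true, .d0 true, .d2 false] tree15 0 0 0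
      (joinS (lay.B * lay.size) rootQ) = true) ∧
    (runPathS conQ supQ (fun n Qs i d x => leafR conQ seg n Qs i d x) [.d0 true, .d1 false, .d2 false, .d0 false, .d1 true, .d0 true, .d2 true, .d0 false] tree16 0 0 0
      (joinS (lay.B * lay.size) rootQ) = true) ∧
    (runPathS conQ supQ (fun n Qs i d x => leafR conQ seg n Qs i d x) [.d0 true, .d1 false, .d2 false, .d0 false, .d1 true, .d0 true, .d2 true, .d0 true] tree17 0 0 0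
      (joinS (lay.B * lay.size) rootQ) = true) ∧
    (runPathS conQ supQ (fun n Qs i d x => leafR conQ seg n Qs i d x) [.d0 true, .d1 false, .d2 false, .d0 true, .d1 false] tree18 0 0 0
      (joinS (lay.B * lay.size) rootQ) = true) ∧
    (runPathS conQ supQ (fun n Qs i d x => leafR conQ seg n Qs i d x) [.d0 true, .d1 false, .d2 false, .d0 true, .d1 true, .d0 false, .d2 false] tree19 0 0 0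
      (joinS (lay.B * lay.size) rootQ) = true) ∧
    (runPathS conQ supQ (fun n Qs i d x => leafR conQ seg n Qs i d x) [.d0 true, .d1 false, .d2 false, .d0 true, .d1 true, .d0 false, .d2 true, .d2 false, .d2 false] tree20 0 0 0
      (joinS (lay.B * lay.size) rootQ) = true) ∧
    (runPathS conQ supQ (fun n Qs i d x => leafR conQ seg n Qs i d x) [.d0 true, .d1 false, .d2 false, .d0 true, .d1 true, .d0 false, .d2 true, .d2 false, .d2 true] tree21 0 0 0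
      (joinS (lay.B * lay.size) rootQ) = true) ∧
    (runPathS conQ supQ (fun n Qs i d x => leafR conQ seg n Qs i d x) [.d0 true, .d1 false, .d2 false, .d0 true, .d1 true, .d0 false, .d2 true, .d2 true] tree22 0 0 0
      (joinS (lay.B * lay.size) rootQ) = true) ∧
    (runPathS conQ supQ (fun n Qs i d x => leafR conQ seg n Qs i d x) [.d0 true, .d1 false, .d2 false, .d0 true, .d1 true, .d0 true] tree23 0 0 0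
      (joinS (lay.B * lay.size) rootQ) = true) ∧
    (runPathS conQ supQ (fun n Qs i d x => leafR conQ seg n Qs i d x) [.d0 true, .d1 false, .d2 true, .d0 false, .d1 false, .d1 false] tree24 0 0 0
      (joinS (lay.B * lay.size) rootQ) = true) ∧
    (runPathS conQ supQ (fun n Qs i d x => leafR conQ seg n Qs i d x) [.d0 true, .d1 false, .d2 true, .d0 false, .d1 false, .d1 true, .d2 false] tree25 0 0 0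
      (joinS (lay.B * lay.size) rootQ) = true) ∧
    (runPathS conQ supQ (fun n Qs i d x => leafR conQ seg n Qs i d x) [.d0 true, .d1 false, .d2 true, .d0 false, .d1 false, .d1 true, .d2 true] tree26 0 0 0
      (joinS (lay.B * lay.size) rootQ) = true) :=
  ⟨by decide +kernel,
  by decide +kernel,
  by decide +kernel,
  by decide +kernel,
  by decide +kernel,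
  by decide +kernel,
  by decide +kernel,
  by decide +kernel,
  by decide +kernel,
  by decide +kernel,
  by decide +kernel,
  by decide +kernel,
  by decide +kernel,
  by decide +kernel,
  by decide +kernel,
  by decide +kernel,
  by decide +kernel,
  by decide +kernel,
  by decide +kernel,
  by decide +kernel,
  by decide +kernel,
  by decide +kernel,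
  by decide +kernel,
  by decide +kernel,
  by decide +kernel,
  by decide +kernel,
  by decide +kernel⟩

end Vale.Agent.P098.Six.S11
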